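import Vale.Agent.P133.H832.TameDef
import Vale.Agent.P133.R2.H28.Defs

/-!
P133 (helper216): compact ideals.
-/

open scoped ComplexOrder

namespace Vale.Agent.P133.H216

open Vale.Agent.P133.H832

universe u

/-- The open set of `I` in the closed set of `P` is quasi-compact. -/
def CompactMod {A : Type u} [NonUnitalCStarAlgebra A] [PartialOrder A] [StarOrderedRing A]
    (P I : Submodule ℂ A) : Prop :=
  ∃ c : A, 0 ≤ c ∧ c ∈ I ∧ ∃ r : ℝ, 0 < r ∧ ∀ P' : Submodule ℂ A, IsClosedIdeal P' → P ≤ P' →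
    Vale.Agent.P133.R2.H28.cut c r ∈ P' → I ≤ P'

end Vale.Agent.P133.H216
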