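import Vale.Agent.P133.H779.Ind
import Vale.Agent.P133.H779.Sigma
import Vale.Agent.P133.R2.H695.Roerdam
import Vale.Agent.P133.H216.CompDef

/-!
P133 (helper216): compact ideals in the inductive criterion: no condition on the boundary.
-/

open scoped ComplexOrder

namespace Vale.Agent.P133.H216

open Vale.Agent.P133 Vale.Agent.P133.Statement Vale.Agent.P133.H832 Vale.Agent.P133F
  Vale.Agent.P133.H681 Vale.Agent.P133.R2 Vale.Agent.P133.R2.H28 Vale.Agent.P133.H779
  Vale.Agent.P133.H512 Vale.Agent.P133.H330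

universe u

section

variable {A : Type u} [NonUnitalCStarAlgebra A] [PartialOrder A] [StarOrderedRing A]

omit [PartialOrder A] [StarOrderedRing A] in
theorem ri_neg {z a : A} (h : a ∈ RI z) : -a ∈ RI z := by
  refine mem_RI.2 fun ε hε => ?_
  obtain ⟨w, hw⟩ := mem_RI.1 h ε hε
  refine ⟨-w, ?_⟩
  rwa [mul_neg, ← neg_sub', norm_neg]

omit [PartialOrder A] [StarOrderedRing A] in
theorem ri_sub {z a b : A} (ha : a ∈ RI z) (hb : b ∈ RI z) : a - b ∈ RI z := by
  rw [sub_eq_add_neg]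
  exact RI.add ha (ri_neg hb)

/-- The error term of a comparison modulo `J` is absorbed by `y`; any target `b`. -/
theorem infB_absorbT {n : ℕ} (hW : WPI A n) {a h y b : A} (ha : 0 ≤ a) (h0 : 0 ≤ h) (y0 : 0 ≤ y)
    (b0 : 0 ≤ b) (hhy : h * y = 0) (hha : h ∈ RI a) (hya : y ∈ RI a)
    {J : Submodule ℂ A} (hJ : IsClosedIdeal J) (hJy : ∀ x ∈ J, InfB y (star x * x))
    (hq : ∀ ε : ℝ, 0 < ε → ∃ (s : Fin n → A) (z : Fin n → Fin n → A), (∀ i j, z i j ∈ J) ∧
      ∀ i j, ‖star (s i) * h * s j - (if i = j then b else 0) - z i j‖ < ε) : InfB a b := by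
  obtain ⟨k, hk⟩ : ∃ k : A, k = CFC.sqrt h := ⟨_, rfl⟩
  have hks : star k = k := by rw [hk]; exact (IsSelfAdjoint.of_nonneg (CFC.sqrt_nonneg h)).star_eq
  have hkk : k * k = h := by rw [hk]; exact CFC.sqrt_mul_sqrt_self h h0
  obtain ⟨p, hp⟩ : ∃ p : A, p = CFC.sqrt b := ⟨_, rfl⟩
  have hps : star p = p := by rw [hp]; exact (IsSelfAdjoint.of_nonneg (CFC.sqrt_nonneg b)).star_eq
  have hpp : p * p = b := by rw [hp]; exact CFC.sqrt_mul_sqrt_self b b0
  obtain ⟨l, hl⟩ : ∃ l : A, l = CFC.sqrt y := ⟨_, rfl⟩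
  have hls : star l = l := by rw [hl]; exact (IsSelfAdjoint.of_nonneg (CFC.sqrt_nonneg y)).star_eq
  have hll : l * l = y := by rw [hl]; exact CFC.sqrt_mul_sqrt_self y y0
  have hkRI : k ∈ RI h := by rw [hk]; exact sqrt_mem_RI h0
  have hlRI : l ∈ RI y := by rw [hl]; exact sqrt_mem_RI y0
  have hkl : k * l = 0 := by
    have h1 := RI.orth (z := h) (z' := y) (by rw [(IsSelfAdjoint.of_nonneg h0).star_eq]; exact hhy)
      hkRI hlRI
    rwa [hks] at h1
  have hlk : l * k = 0 := by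
    have h1 := congrArg star hkl
    rwa [star_mul, hks, hls, star_zero] at h1
  refine infB_of_wpi hW b0 fun τ hτ => ?_
  set K : ℝ := ‖p‖ * ‖p‖ / (τ / 2) + 1 with hK
  have hK0 : 0 < K := by positivity
  set ε : ℝ := τ / (40 * K) with hε
  have hε0 : 0 < ε := by positivity
  obtain ⟨s, z, hzJ, hs⟩ := hq ε hε0
  obtain ⟨g, hg0, hg1, hgJ, hgz⟩ := unit_ideal hJ (fun p : Fin n × Fin n => z p.1 p.2)
    (fun p => hzJ _ _) hε0
  have hgs : star g = g := (IsSelfAdjoint.of_nonneg hg0).star_eq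
  have hpg : p * g ∈ J := (hJ.2 p g hgJ).1
  obtain ⟨u, hu⟩ := (hJy _ hpg).2 n ε hε0
  -- the total
  set Q : A := ((b - g * b) - (b - g * b) * g) + g * b * g with hQ
  have hpg2 : star (p * g) * (p * g) = g * b * g := by
    rw [star_mul, hps, hgs, ← hpp]; simp only [mul_assoc]
  have hQle : p * p ≤ (2 : ℝ) • Q := by
    have e1 : (2 : ℝ) • Q - p * p = star (p - (2 : ℝ) • (p * g)) * (p - (2 : ℝ) • (p * g)) := by
      have e2 : star (p - (2 : ℝ) • (p * g)) * (p - (2 : ℝ) • (p * g)) =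
          p * p - (2 : ℝ) • (p * p * g) - (2 : ℝ) • (g * (p * p)) +
            (2 : ℝ) • ((2 : ℝ) • (g * (p * p) * g)) := by
        rw [star_sub, star_smul, star_trivial (2 : ℝ), star_mul, hps, hgs, sub_mul, mul_sub,
          mul_sub, mul_smul_comm, smul_mul_assoc, smul_mul_smul_comm, smul_smul]
        simp only [mul_assoc]
        abel
      rw [e2, hpp, hQ]
      simp only [two_smul, sub_mul]
      abel
    rw [← sub_nonneg, e1]
    exact star_mul_self_nonneg _
  obtain ⟨D, hDn, hD⟩ := order_lemma' hps hQle (half_pos hτ)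
  have hDK : ‖D‖ * ‖D‖ ≤ K := hDn.trans (by rw [hK]; linarith)
  -- the vectors
  set V : Fin n → A := fun i => k * (s i - s i * g) + l * u i with hV
  have hVa : ∀ i, V i ∈ RI a := fun i =>
    RI.add (RI.mul (RI.trans hkRI hha) _) (RI.mul (RI.trans hlRI hya) _)
  have hVV : ∀ i j, ‖star (V i) * V j - (if i = j then Q else 0)‖ ≤ 6 * ε := by
    intro i j
    have e1 : star (V i) * V j = star (s i - s i * g) * h * (s j - s j * g) +
        star (u i) * y * u j := by
      simp only [hV, star_add, star_mul, hks, hls, add_mul, mul_add]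
      have h1 : star (s i - s i * g) * k * (l * u j) = 0 := by
        calc _ = star (s i - s i * g) * (k * l) * u j := by simp only [mul_assoc]
          _ = 0 := by rw [hkl]; simp
      have h2 : star (u i) * l * (k * (s j - s j * g)) = 0 := by
        calc _ = star (u i) * (l * k) * (s j - s j * g) := by simp only [mul_assoc]
          _ = 0 := by rw [hlk]; simp
      rw [h1, h2, add_zero, zero_add, ← hkk, ← hll]
      simp only [mul_assoc]
    set x : A := star (s i) * h * s j - (if i = j then b else 0) - z i j with hx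
    have hxn : ‖x‖ ≤ ε := (hs i j).le
    have e2 : star (s i - s i * g) * h * (s j - s j * g) -
        (if i = j then (b - g * b) - (b - g * b) * g else 0) =
        ((x - g * x) - (x - g * x) * g) + ((z i j - g * z i j) - (z i j - g * z i j) * g) := by
      rw [star_sub, star_mul, hgs, hx]
      split_ifs <;> noncomm_ring
    have e3 : star (V i) * V j - (if i = j then Q else 0) =
        (((x - g * x) - (x - g * x) * g) + ((z i j - g * z i j) - (z i j - g * z i j) * g)) +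
          (star (u i) * y * u j - (if i = j then g * b * g else 0)) := by
      rw [e1, ← e2, hQ]
      split_ifs
      · abel
      · abel
    have h1 : ‖x - g * x‖ ≤ 2 * ε := by
      calc _ ≤ ‖x‖ + ‖g * x‖ := norm_sub_le _ _
        _ ≤ ε + 1 * ε := add_le_add hxn (norm_mul_le_of_le hg1 hxn)
        _ = 2 * ε := by ring
    have h2 : ‖(x - g * x) - (x - g * x) * g‖ ≤ 4 * ε := by
      calc _ ≤ ‖x - g * x‖ + ‖(x - g * x) * g‖ := norm_sub_le _ _
        _ ≤ 2 * ε + 2 * ε * 1 := add_le_add h1 (norm_mul_le_of_le h1 hg1)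
        _ = 4 * ε := by ring
    have h3 := (hu i j).le
    rw [hpg2] at h3
    rw [e3]
    calc _ ≤ ‖((x - g * x) - (x - g * x) * g) + ((z i j - g * z i j) - (z i j - g * z i j) * g)‖ +
          ‖star (u i) * y * u j - (if i = j then g * b * g else 0)‖ := norm_add_le _ _
      _ ≤ (4 * ε + ε) + ε := add_le_add ((norm_add_le _ _).trans
          (add_le_add h2 (hgz (i, j)))) h3
      _ = 6 * ε := by ring
  obtain ⟨T, hT⟩ := rows_of_vectors ha V hVa hε0
  have hTT : ∀ i j, ‖star (T i) * a * T j - (if i = j then Q else 0)‖ ≤ 10 * ε := by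
    intro i j
    have e1 : star (T i) * a * T j - (if i = j then Q else 0) =
        (star (T i) * a * T j - star (V i) * V j) +
          (star (V i) * V j - (if i = j then Q else 0)) := by abel
    rw [e1]
    calc _ ≤ _ := norm_add_le _ _
      _ ≤ ε + 6 * ε := add_le_add (hT i j) (hVV i j)
      _ ≤ 10 * ε := by linarith
  -- the final vectors
  have h22 : √(2 : ℝ) * √2 = 2 := Real.mul_self_sqrt (by norm_num)
  refine ⟨fun i => √(2 : ℝ) • (T i * D), fun i j => ?_⟩
  have e1 : star (√(2 : ℝ) • (T i * D)) * a * (√(2 : ℝ) • (T j * D)) -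
      (if i = j then b else 0) =
      (2 : ℝ) • (star D * (star (T i) * a * T j - (if i = j then Q else 0)) * D) +
        (if i = j then star D * ((2 : ℝ) • Q) * D - p * p else 0) := by
    rw [star_smul, star_trivial (√(2 : ℝ)), smul_mul_assoc, smul_mul_smul_comm, h22, star_mul]
    split_ifs
    · rw [mul_sub, sub_mul, smul_sub, hpp, mul_smul_comm, smul_mul_assoc]
      simp only [mul_assoc]
      abel
    · simp only [sub_zero, add_zero, mul_assoc]
  rw [e1]
  have h1 : ‖(2 : ℝ) • (star D * (star (T i) * a * T j - (if i = j then Q else 0)) * D)‖ ≤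
      τ / 2 := by
    rw [norm_smul, Real.norm_of_nonneg (by norm_num)]
    calc 2 * ‖star D * (star (T i) * a * T j - (if i = j then Q else 0)) * D‖
        ≤ 2 * (‖D‖ * (10 * ε) * ‖D‖) := by
          gcongr
          exact norm_mul_le_of_le (norm_mul_le_of_le (norm_star _).le (hTT i j)) le_rfl
      _ = 20 * ε * (‖D‖ * ‖D‖) := by ring
      _ ≤ 20 * ε * K := by gcongr
      _ = τ / 2 := by rw [hε]; field_simp; norm_num
  have h2 : ‖(if i = j then star D * ((2 : ℝ) • Q) * D - p * p else 0)‖ ≤ τ / 2 := by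
    split_ifs
    · exact hD
    · rw [norm_zero]; positivity
  calc _ ≤ _ := norm_add_le _ _
    _ ≤ τ := by linarith


theorem gg_close {Y : A} (hY : 0 ≤ Y) : ‖cfcₙ gg Y - Y‖ ≤ 3 / 4 := by
  have hYs : IsSelfAdjoint Y := IsSelfAdjoint.of_nonneg hY
  have e1 : cfcₙ gg Y - Y = cfcₙ (fun t => gg t - t) Y := by
    rw [cfcₙ_sub gg (fun t : ℝ => t) Y gg_cont.continuousOn gg_zero (by fun_prop) rfl,
      cfcₙ_id' ℝ Y]
  rw [e1]
  refine norm_cfcₙ_le fun t ht => ?_
  have h0 : 0 ≤ t := quasispectrum_nonneg_of_nonneg Y hY t ht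
  unfold gg
  rw [Real.norm_eq_abs, abs_le]
  rcases le_total (t - 3 / 4) 0 with h | h
  · rw [max_eq_right h]; constructor <;> linarith
  · rw [max_eq_left h]; constructor <;> linarith

theorem ff_close {Y : A} (hY : 0 ≤ Y) : ‖cfcₙ ff Y * Y * cfcₙ ff Y - Y‖ ≤ 3 / 4 := by
  have hYs : IsSelfAdjoint Y := IsSelfAdjoint.of_nonneg hY
  have e1 : cfcₙ ff Y * Y * cfcₙ ff Y - Y = cfcₙ (fun t => ff t * t * ff t - t) Y := by
    have hc : Continuous (fun t : ℝ => ff t * t) := ff_cont.mul continuous_id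
    rw [cfcₙ_sub (fun t : ℝ => ff t * t * ff t) (fun t : ℝ => t) Y
      (hc.mul ff_cont).continuousOn (by simp [ff_zero]) (by fun_prop) rfl, cfcₙ_id' ℝ Y,
      cfcₙ_mul (fun t : ℝ => ff t * t) ff Y hc.continuousOn (by simp [ff_zero])
        ff_cont.continuousOn ff_zero,
      cfcₙ_mul ff (fun t : ℝ => t) Y ff_cont.continuousOn ff_zero (by fun_prop) rfl,
      cfcₙ_id' ℝ Y]
  rw [e1]
  refine norm_cfcₙ_le fun t ht => ?_
  have h0 : 0 ≤ t := quasispectrum_nonneg_of_nonneg Y hY t ht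
  have h1 := ff_nonneg t
  have h2 := ff_le t
  rw [Real.norm_eq_abs, abs_le]
  rcases le_total t (3 / 4) with h | h
  · constructor
    · nlinarith [mul_nonneg (mul_nonneg h1 h0) h1]
    · nlinarith [mul_nonneg (mul_nonneg h1 h0) h1, mul_le_mul h2 h2 h1 zero_le_one]
  · have h3 : ff t = 1 := by
      unfold ff
      rw [min_eq_left (by linarith), max_eq_right zero_le_one]
    rw [h3]; constructor <;> linarith

/-- Let all multiples of `c` be below `a` and let `c` be in the closed ideal `I`. Then the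
hereditary subalgebra of `a` contains elements `F` and `z` of `I` with `F z = z` such that all
multiples of `(c - κ)₊` are below `z`. -/
theorem exists_small_full {n : ℕ} (hn : WPI A n) {a c : A} (ha : 0 ≤ a) (hc : 0 ≤ c)
    (hac : InfB a c) {I : Submodule ℂ A} (hI : IsClosedIdeal I) (hcI : c ∈ I) {κ : ℝ}
    (hκ : 0 < κ) : ∃ F z : A, star F = F ∧ 0 ≤ z ∧ F ∈ I ∧ F ∈ RI a ∧ z ∈ RI a ∧ F * z = z ∧
      InfB z (R2.H28.cut c κ) := by
  obtain ⟨α, hα⟩ : ∃ α : A, α = CFC.sqrt a := ⟨_, rfl⟩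
  have hαs : star α = α := by rw [hα]; exact (IsSelfAdjoint.of_nonneg (CFC.sqrt_nonneg a)).star_eq
  have hαα : α * α = a := by rw [hα]; exact CFC.sqrt_mul_sqrt_self a ha
  have hαRI : α ∈ RI a := by rw [hα]; exact sqrt_mem_RI ha
  set κ' : ℝ := κ / (2 * ((n : ℝ) ^ 2 + 1)) with hκ'
  have hκ'0 : 0 < κ' := by positivity
  have hnum : (n : ℝ) * (n * κ') < κ := by
    have h1 : κ' * (2 * ((n : ℝ) ^ 2 + 1)) = κ := by rw [hκ']; field_simp
    nlinarith [sq_nonneg (n : ℝ), mul_nonneg (sq_nonneg (n : ℝ)) hκ'0.le]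
  set τ : ℝ := κ' / 8 with hτ
  have hτ0 : 0 < τ := by positivity
  obtain ⟨r, hr⟩ := hac.2 n τ hτ0
  -- the function `w` of `c`
  set C : A := (1 / τ) • c with hC
  have hC0 : 0 ≤ C := smul_nonneg (by positivity) hc
  have hCI : C ∈ I := by
    have h1 : C = ((1 / τ : ℝ) : ℂ) • c := by rw [hC]; exact (Complex.coe_smul _ _).symm
    rw [h1]; exact I.smul_mem _ hcI
  obtain ⟨hws, -, hwk, -, -⟩ := fun_data hC0
  set w : A := cfcₙ ff C with hw
  have hwI : w ∈ I := by rw [← hwk]; exact (hI.2 _ _ hCI).2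
  have hwn : ‖w‖ ≤ 1 := norm_cfcₙ_le fun t _ => by
    rw [Real.norm_of_nonneg (ff_nonneg t)]; exact ff_le t
  have hwc : ‖w * c * w - c‖ ≤ τ := by
    have h1 := ff_close hC0
    have h2 : c = τ • C := by rw [hC, smul_smul]; rw [mul_one_div_cancel hτ0.ne', one_smul]
    have h3 : w * c * w - c = τ • (w * C * w - C) := by
      conv_lhs => rw [h2]
      rw [mul_smul_comm, smul_mul_assoc, smul_sub]
    rw [h3, norm_smul, Real.norm_of_nonneg hτ0.le]
    nlinarith
  -- the vectors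
  set x : Fin n → A := fun j => r j * w with hx
  set M : ℝ := ∑ j, ‖x j‖ + 1 with hM
  have hM1 : 1 ≤ M := by
    have : 0 ≤ ∑ j, ‖x j‖ := Finset.sum_nonneg fun j _ => norm_nonneg _
    linarith
  have hxM : ∀ j, ‖x j‖ ≤ M := fun j => by
    have : ‖x j‖ ≤ ∑ j, ‖x j‖ :=
      Finset.single_le_sum (f := fun j => ‖x j‖) (fun j _ => norm_nonneg _) (Finset.mem_univ j)
    linarith
  set v : Fin n → A := fun j => α * x j with hv
  have hvI : ∀ j, v j ∈ I := fun j => (hI.2 _ _ (hI.2 _ _ hwI).1).1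
  set N : ℝ := ‖α‖ * M + 1 with hN
  have hN0 : 0 < N := by positivity
  have hvN : ∀ j, ‖v j‖ ≤ N := fun j => by
    calc ‖v j‖ ≤ ‖α‖ * ‖x j‖ := norm_mul_le _ _
      _ ≤ ‖α‖ * M := by gcongr; exact hxM j
      _ ≤ N := by rw [hN]; linarith
  obtain ⟨g, hg0, hg1, hgI, hgv⟩ := unit_ideal hI (fun j : Fin n => v j * star (v j))
    (fun j => (hI.2 _ _ (hvI j)).2) (ε := (τ / N) ^ 2) (by positivity)
  have hgs : star g = g := (IsSelfAdjoint.of_nonneg hg0).star_eq
  have hgv' : ∀ j, ‖v j - g * v j‖ ≤ τ / N := fun j => by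
    have h1 := hgv j
    have h2 : (v j * star (v j) - g * (v j * star (v j))) -
        (v j * star (v j) - g * (v j * star (v j))) * g =
        (v j - g * v j) * star (v j - g * v j) := by
      rw [star_sub, star_mul g (v j), hgs]; noncomm_ring
    rw [h2, CStarRing.norm_self_mul_star] at h1
    exact abs_le_of_sq_le_sq' (by nlinarith [norm_nonneg (v j - g * v j)]) (by positivity) |>.2
  set y : A := α * g * α with hy
  have hy0 : 0 ≤ y := by
    have h1 := star_left_conjugate_nonneg hg0 α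
    rwa [hαs] at h1
  have hyI : y ∈ I := (hI.2 _ _ (hI.2 _ _ hgI).1).2
  have hyRI : y ∈ RI a := RI.mul (RI.mul hαRI _) _
  have hrow : ∀ i j, ‖star (x i) * y * x j - (if i = j then c else 0)‖ ≤ 3 * τ := by
    intro i j
    have e1 : star (x i) * y * x j - (if i = j then c else 0) =
        -(star (v i) * (v j - g * v j)) +
          w * (star (r i) * a * r j - (if i = j then c else 0)) * w +
          (if i = j then w * c * w - c else 0) := by
      have e2 : star (v i) * v j = w * (star (r i) * a * r j) * w := by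
        simp only [hv, hx, star_mul, hαs, hws, ← hαα, mul_assoc]
      have e3 : star (x i) * y * x j = star (v i) * (g * v j) := by
        simp only [hv, hy, star_mul, hαs, mul_assoc]
      rw [e3, mul_sub, e2]
      split_ifs
      · rw [mul_sub, sub_mul]; abel
      · rw [mul_sub, sub_mul]; simp
    rw [e1]
    have h1 : ‖-(star (v i) * (v j - g * v j))‖ ≤ τ := by
      rw [norm_neg]
      calc _ ≤ ‖star (v i)‖ * ‖v j - g * v j‖ := norm_mul_le _ _
        _ ≤ N * (τ / N) := by rw [norm_star]; gcongr; exacts [hvN i, hgv' j]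
        _ = τ := by field_simp
    have h2 : ‖w * (star (r i) * a * r j - (if i = j then c else 0)) * w‖ ≤ τ := by
      calc _ ≤ 1 * τ * 1 := norm_mul_le_of_le (norm_mul_le_of_le hwn (hr i j).le) hwn
        _ = τ := by ring
    have h3 : ‖(if i = j then w * c * w - c else 0)‖ ≤ τ := by
      split_ifs
      · exact hwc
      · rw [norm_zero]; exact hτ0.le
    calc _ ≤ _ := norm_add₃_le
      _ ≤ 3 * τ := by linarith
  -- scaling
  set L : ℝ := M * M / τ with hL
  have hL0 : 0 < L := by positivity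
  set Y : A := L • y with hY
  have hY0 : 0 ≤ Y := smul_nonneg hL0.le hy0
  have hYI : Y ∈ I := by
    have h1 : Y = ((L : ℝ) : ℂ) • y := by rw [hY]; exact (Complex.coe_smul _ _).symm
    rw [h1]; exact I.smul_mem _ hyI
  have hYRI : Y ∈ RI a := by
    have h1 : Y = α * g * (L • α) := by rw [hY, hy, mul_smul_comm]
    rw [h1]; exact RI.mul (RI.mul hαRI _) _
  obtain ⟨hFs, hFG, hFK, -, hG0⟩ := fun_data hY0
  have hFI : cfcₙ ff Y ∈ I := by rw [← hFK]; exact (hI.2 _ _ hYI).2
  have hFRI : cfcₙ ff Y ∈ RI a := by rw [← hFK]; exact RI.mul hYRI _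
  refine ⟨cfcₙ ff Y, cfcₙ gg Y, hFs, hG0, hFI, hFRI, by rw [← hFG]; exact RI.mul hFRI _, hFG, ?_⟩
  set S : ℝ := (√L)⁻¹ with hS
  have hSS : S * S = L⁻¹ := by
    rw [hS, ← mul_inv, Real.mul_self_sqrt hL0.le]
  refine Vale.Agent.P133.H695.infB_cut hn (IsSelfAdjoint.of_nonneg hG0).star_eq hc hκ
    (fun j => S • x j) (κ' := κ') (fun i j => ?_) hnum
  have e1 : star (S • x i) * cfcₙ gg Y * (S • x j) - (if i = j then c else 0) =
      L⁻¹ • (star (x i) * (cfcₙ gg Y - Y) * x j) +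
        (star (x i) * y * x j - (if i = j then c else 0)) := by
    have e2 : L⁻¹ • (star (x i) * Y * x j) = star (x i) * y * x j := by
      rw [hY, mul_smul_comm, smul_mul_assoc, smul_smul, inv_mul_cancel₀ hL0.ne', one_smul]
    rw [star_smul, star_trivial S, smul_mul_assoc, smul_mul_smul_comm, hSS, mul_sub, sub_mul,
      smul_sub, e2]
    abel
  rw [e1]
  have h1 : ‖L⁻¹ • (star (x i) * (cfcₙ gg Y - Y) * x j)‖ ≤ τ := by
    rw [norm_smul, Real.norm_of_nonneg (by positivity)]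
    calc L⁻¹ * ‖star (x i) * (cfcₙ gg Y - Y) * x j‖ ≤ L⁻¹ * (M * (3 / 4) * M) := by
          gcongr
          refine norm_mul_le_of_le (norm_mul_le_of_le ?_ (gg_close hY0)) (hxM j)
          rw [norm_star]; exact hxM i
      _ = 3 / 4 * (M * M / L) := by field_simp
      _ = 3 / 4 * τ := by rw [hL]; field_simp
      _ ≤ τ := by linarith
  calc _ ≤ _ := norm_add_le _ _
    _ ≤ τ + 3 * τ := add_le_add h1 (hrow i j)
    _ ≤ κ' := by rw [hτ]; linarith


/-- Let `I` be a compact closed ideal (the closed ideal generated by `(c - r)₊` for an element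
`c` of `I`) and let all multiples of `c` be below `a`. If all multiples of `b` are below `a`
modulo `I`, they are below `a`. -/
theorem infB_of_compact {n : ℕ} (hn : WPI A n) {a b c : A} (ha : 0 ≤ a) (hb : 0 ≤ b)
    (hc : 0 ≤ c) (hac : InfB a c) {I : Submodule ℂ A} (hI : IsClosedIdeal I) (hcI : c ∈ I)
    {r : ℝ} (hr : 0 < r)
    (hcomp : ∀ P : Submodule ℂ A, IsClosedIdeal P → R2.H28.cut c r ∈ P → I ≤ P)
    (hrows : ∀ ε : ℝ, 0 < ε → RowsMod I a b n ε) : InfB a b := by
  obtain ⟨F, z, hFs, hz0, hFI, hFRI, hzRI, hFz, hz⟩ := exists_small_full hn ha hc hac hI hcI hr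
  obtain ⟨α, hα⟩ : ∃ α : A, α = CFC.sqrt a := ⟨_, rfl⟩
  have hαs : star α = α := by rw [hα]; exact (IsSelfAdjoint.of_nonneg (CFC.sqrt_nonneg a)).star_eq
  have hαα : α * α = a := by rw [hα]; exact CFC.sqrt_mul_sqrt_self a ha
  set h : A := star (α - α * F) * (α - α * F) with hh
  have hh0 : 0 ≤ h := star_mul_self_nonneg _
  have he : h = a - a * F - F * a + F * a * F := by
    rw [hh, star_sub, star_mul, hαs, hFs, ← hαα]
    noncomm_ring
  have hhz : h * z = 0 := by
    have h1 : (α - α * F) * z = 0 := by rw [sub_mul, mul_assoc, hFz, sub_self]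
    rw [hh, mul_assoc, h1, mul_zero]
  have haRI : a ∈ RI a := by
    have h1 : CFC.sqrt a * CFC.sqrt a ∈ RI a := RI.mul (sqrt_mem_RI ha) _
    rwa [CFC.sqrt_mul_sqrt_self a ha] at h1
  have hhRI : h ∈ RI a := by
    rw [he]
    exact RI.add (ri_sub (ri_sub haRI (RI.mul haRI _)) (RI.mul hFRI _))
      (RI.mul (RI.mul hFRI _) _)
  have hhI : h - a ∈ I := by
    have h1 : h - a = -(a * F) - F * a + F * a * F := by rw [he]; abel
    rw [h1]
    exact I.add_mem (I.sub_mem (I.neg_mem (hI.2 _ _ hFI).1) (hI.2 _ _ hFI).2)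
      (hI.2 _ _ hFI).1
  obtain ⟨J, hJ, hJ'⟩ := isClosedIdeal_inId (R2.H28.cut c r)
  have hIJ : I ≤ J := hcomp J hJ ((hJ' _).2 (InId.refl _))
  refine infB_absorbT hn ha hh0 hz0 hb hhz hhRI hzRI hI
    (fun x hx => infB_idSub hz hJ' x (hIJ hx)) fun ε hε => ?_
  obtain ⟨s, y, hy, hs⟩ := hrows ε hε
  refine ⟨s, fun i j => y i j + star (s i) * (h - a) * s j, fun i j =>
    I.add_mem (hy i j) (hI.2 _ _ (hI.2 _ _ hhI).1).2, fun i j => ?_⟩
  have e1 : star (s i) * h * s j - (if i = j then b else 0) -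
      (y i j + star (s i) * (h - a) * s j) =
      star (s i) * a * s j - (if i = j then b else 0) - y i j := by
    rw [mul_sub, sub_mul]; abel
  rw [e1]
  exact hs i j

end

section

variable {A : Type u} [NonUnitalCStarAlgebra A] [PartialOrder A] [StarOrderedRing A]

/-- **The inductive theorem with compact ideals.** Let `A` be weakly purely infinite. Suppose
that for all closed ideals `K < K'` of `A` there is a closed ideal `I` with `K < I ≤ K'` such that
the quotient of `A` by `I + (K : I)` is purely infinite or `I` is compact modulo `K`. Then `A` is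
purely infinite. -/
theorem eltPI_of_ind' {n : ℕ} (hn : WPI A n)
    (H : ∀ K K' : Submodule ℂ A, IsClosedIdeal K → IsClosedIdeal K' → K < K' →
      ∃ I : Submodule ℂ A, IsClosedIdeal I ∧ K < I ∧ I ≤ K' ∧
        ((∀ (B : Type u) [NonUnitalCStarAlgebra B] [PartialOrder B] [StarOrderedRing B]
          (φ : A →⋆ₙₐ[ℂ] B), Function.Surjective φ →
          (∀ x, φ x = 0 ↔ x ∈ (I ⊔ colon K I).topologicalClosure) → EltPI B) ∨
        CompactMod K I)) : EltPI A := by
  refine eltPI_of_infB fun a ha => ?_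
  -- it suffices to find small cuts
  suffices hcut : ∀ κ₀ : ℝ, 0 < κ₀ → Good n a κ₀ ⊥ by
    refine infB_lim ha fun ε hε => ?_
    obtain ⟨κ, hκ, hκε, h⟩ := infB_of_good hn ha (φ := NonUnitalStarAlgHom.id ℂ A)
      (fun x => ⟨x, rfl⟩) (fun x hx => (Submodule.mem_bot ℂ).1 hx) (hcut ε hε)
    exact ⟨R2.H28.cut a κ, h, (R2.H28.norm_cut_sub_le ha hκ).trans_lt hκε⟩
  intro κ₀ hκ₀
  by_contra hbad
  -- a maximal bad ideal
  obtain ⟨K, -, hKm⟩ := zorn_le_nonempty₀
    {P : Submodule ℂ A | IsClosedIdeal P ∧ ¬ Good n a κ₀ P} (by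
      intro c hc hch y hy
      refine ⟨(sSup c).topologicalClosure, ⟨isClosedIdeal_closure fun b x hx => ?_, ?_⟩,
        fun z hz => (le_sSup hz).trans (Submodule.le_topologicalClosure _)⟩
      · have h1 : ∀ x, x ∈ sSup c ↔ ∃ P ∈ c, x ∈ P := fun x =>
          Submodule.mem_sSup_of_directed ⟨y, hy⟩ hch.directedOn
        obtain ⟨P, hP, hx⟩ := (h1 x).1 hx
        exact ⟨(h1 _).2 ⟨P, hP, ((hc hP).1.2 b x hx).1⟩,
          (h1 _).2 ⟨P, hP, ((hc hP).1.2 b x hx).2⟩⟩
      · intro hg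
        obtain ⟨P, hP, hPg⟩ := good_chain hn ha (fun P hP => (hc hP).1) hch ⟨y, hy⟩ hg
        exact (hc hP).2 hPg) ⊥ ⟨isClosedIdeal_bot, hbad⟩
  obtain ⟨hK, hKbad⟩ := hKm.prop
  have hmax : ∀ P' : Submodule ℂ A, IsClosedIdeal P' → K ≤ P' → ¬ P' ≤ K → Good n a κ₀ P' := by
    intro P' hP' hle hnle
    by_contra hb
    exact hnle (hKm.le_of_ge ⟨hP', hb⟩ hle)
  obtain ⟨D, i1, i2, i3, φ, hφ, hk⟩ := hK.quot
  have hD : WPI D n := wpiE_of_surj hn φ hφ
  have hφa : 0 ≤ φ a := map_nonneg_aux φ ha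
  -- `a` is not good in `D`
  have hDbad : ∀ κ, 0 < κ → κ < κ₀ → ¬ InfB (φ a) (φ (R2.H28.cut a κ)) := fun κ hκ hκ₀ h =>
    hKbad (good_of_infB hκ hκ₀ hφ (fun x hx => (hk x).1 hx) h)
  have hne : φ a ≠ 0 := by
    intro h0
    refine hDbad (κ₀ / 2) (half_pos hκ₀) (half_lt_self hκ₀) ⟨map_nonneg_aux φ
      (R2.H28.cut_nonneg _ _), fun m ε hε => ⟨fun _ => 0, fun i j => ?_⟩⟩
    have h1 : φ (R2.H28.cut a (κ₀ / 2)) = 0 := by
      rw [cut_map φ ha (half_pos hκ₀).le, h0]
      exact cfcₙ_apply_zero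
    rw [h1]
    simpa using hε
  have hbot : ∀ x : D, x ≠ 0 → x ∉ (⊥ : Submodule ℂ D) := fun x hx h =>
    hx ((Submodule.mem_bot ℂ).1 h)
  obtain ⟨c, hc0, hc, hac⟩ := exists_below (wpi_of_elt hD) hφa isClosedIdeal_bot (hbot _ hne)
  have hcne : c ≠ 0 := fun h => hc (by rw [h]; exact Submodule.zero_mem _)
  obtain ⟨h, y, h0, y0, hhy, hha, hya, hIa, hyne, -⟩ :=
    full_and_small hφa hcne (infB_of_allBelow hc0 hac)
  obtain ⟨e, he0, he, hye⟩ := exists_below (wpi_of_elt hD) y0 isClosedIdeal_bot (hbot y hyne)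
  have hene : e ≠ 0 := fun h => he (by rw [h]; exact Submodule.zero_mem _)
  have hyeB : InfB y e := infB_of_allBelow he0 hye
  obtain ⟨J, hJ, hJ'⟩ := isClosedIdeal_inId e
  have hJy : ∀ x ∈ J, InfB y (star x * x) := infB_idSub hyeB hJ'
  -- the ideal `J` of `D` in `A`
  let K' : Submodule ℂ A := J.comap (φ : A →ₗ[ℂ] D)
  have hK'm : ∀ x, x ∈ K' ↔ φ x ∈ J := fun x => Iff.rfl
  have hK' : IsClosedIdeal K' := isClosedIdeal_comap φ hJ
  have hKK' : K < K' := by
    refine lt_of_le_of_ne (fun x hx => ?_) fun heq => ?_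
    · rw [hK'm, (hk x).2 hx]; exact J.zero_mem
    · obtain ⟨e', rfl⟩ := hφ e
      have h1 : e' ∈ K := by
        rw [heq, hK'm]; exact (hJ' _).2 (InId.refl _)
      exact hene ((hk _).2 h1)
  obtain ⟨I, hI, hKI, hIK', hB⟩ := H K K' hK hK' hKK'
  have hker : ∀ x, φ x = 0 → x ∈ I := fun x hx => hKI.le ((hk x).1 hx)
  let I' : Submodule ℂ D := I.map (φ : A →ₗ[ℂ] D)
  have hI' : IsClosedIdeal I' := isClosedIdeal_map φ hφ hI hker
  have hI'm : ∀ x, φ x ∈ I' ↔ x ∈ I := mem_map_iff φ hker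
  have hI'J : ∀ x ∈ I', x ∈ J := by
    rintro _ ⟨x, hx, rfl⟩
    exact hIK' hx
  obtain ⟨κ₁, g1, g2, g3⟩ := good_rows hn ha hI (hmax I hI hKI.le (not_le_of_gt hKI))
  rcases hB with hB | ⟨c', hc'0, hc'I, r, hr, hcomp⟩
  · have hc : IsClosedIdeal (colon K I) := isClosedIdeal_colon hK hI
    have hIc : IsClosedIdeal (I ⊔ colon K I).topologicalClosure := by
      refine isClosedIdeal_closure fun b x hx => ?_
      obtain ⟨u, hu, v, hv, rfl⟩ := Submodule.mem_sup.1 hx
      rw [mul_add, add_mul]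
      exact ⟨Submodule.add_mem_sup (hI.2 _ _ hu).1 (hc.2 _ _ hv).1,
        Submodule.add_mem_sup (hI.2 _ _ hu).2 (hc.2 _ _ hv).2⟩
    obtain ⟨C, k1, k2, k3, ρ, hρ, hρk⟩ := hIc.quot
    have hC : EltPI C := hB C ρ hρ hρk
    -- the ideal quotient is `K`
    have hcK : colon K I ≤ K := by
      by_contra hnle
      obtain ⟨κ₂, f1, f2, f3⟩ := good_rows hn ha hc (hmax _ hc (le_colon hK) hnle)
      refine hKbad ⟨max κ₁ κ₂, g1.trans_le (le_max_left _ _), max_lt g2 f2, fun η hη => ?_⟩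
      obtain ⟨s, z, hz, hs⟩ := glueR ha (R2.H28.cut_nonneg a (max κ₁ κ₂)) hI hc hK
        (inf_colon hK hI) hρ hρk (diag_of_eltPI C hC) hη
        (f3 _ (le_max_right _ _) (n + n) (η / 5000) (by positivity))
        (g3 _ (le_max_left _ _) (n + n) (η / 5000) (by positivity))
      exact ⟨s, z, hz, fun i j => (hs i j).le⟩
    have h2 : (I ⊔ colon K I).topologicalClosure ≤ I :=
      Submodule.topologicalClosure_minimal _ (sup_le le_rfl (hcK.trans hKI.le)) hI.1
    have hinf : InfB (φ a) (φ a) := by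
      refine infB_of_quot hD hφa h0 y0 hhy hha hya hIa hI' (fun x hx => hJy x (hI'J x hx))
        fun B _ _ _ ψ hψ hψk => ?_
      refine eltPI_of_le hρ hC (χ := ψ.comp φ) (hψ.comp hφ) (I := I)
        (fun x hx => h2 ((hρk x).1 hx)) fun x hx => ?_
      show ψ (φ x) = 0
      exact (hψk _).2 ((hI'm x).2 hx)
    refine hDbad (κ₀ / 2) (half_pos hκ₀) (half_lt_self hκ₀) ?_
    rw [cut_map φ ha (half_pos hκ₀).le]
    exact infB_cut_of hinf (half_pos hκ₀)
  · refine hDbad κ₁ g1 g2 (infB_of_compact hD hφa (map_nonneg_aux φ (R2.H28.cut_nonneg _ _))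
      (map_nonneg_aux φ hc'0) ?_ hI' ((hI'm c').2 hc'I) hr (fun P hP hcP => ?_) fun ε hε => ?_)
    · -- all multiples of `c'` are below `a`
      have h1 : InfB y (star (CFC.sqrt (φ c')) * CFC.sqrt (φ c')) := by
        refine hJy _ (hI'J _ ?_)
        refine hI'.of_star_mul_self ?_
        rw [(IsSelfAdjoint.of_nonneg (CFC.sqrt_nonneg (φ c'))).star_eq,
          CFC.sqrt_mul_sqrt_self _ (map_nonneg_aux φ hc'0)]
        exact (hI'm c').2 hc'I
      rw [(IsSelfAdjoint.of_nonneg (CFC.sqrt_nonneg (φ c'))).star_eq,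
        CFC.sqrt_mul_sqrt_self _ (map_nonneg_aux φ hc'0)] at h1
      exact infB_mono y0 hφa (Her.mem_RI hya) h1
    · rintro _ ⟨x, hx, rfl⟩
      have hP' : IsClosedIdeal (P.comap (φ : A →ₗ[ℂ] D)) := isClosedIdeal_comap φ hP
      refine hcomp _ hP' (fun z hz => ?_) ?_ hx
      · show φ z ∈ P
        rw [(hk z).2 hz]; exact P.zero_mem
      · show φ (R2.H28.cut c' r) ∈ P
        rw [cut_map φ hc'0 hr.le]; exact hcP
    · obtain ⟨s, z, hz, hs⟩ := g3 κ₁ le_rfl n ε hε
      refine ⟨fun i => φ (s i), fun i j => φ (z i j), fun i j => (hI'm _).2 (hz i j),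
        fun i j => ?_⟩
      have e1 : star (φ (s i)) * φ a * φ (s j) - (if i = j then φ (R2.H28.cut a κ₁) else 0) -
          φ (z i j) = φ (star (s i) * a * s j - (if i = j then R2.H28.cut a κ₁ else 0) - z i j) := by
        rw [map_sub, map_sub, map_mul, map_mul, map_star]
        split_ifs
        · rfl
        · rw [map_zero]
      rw [e1]
      exact (NonUnitalStarAlgHom.norm_apply_le φ _).trans_lt (hs i j)

end

end Vale.Agent.P133.H216
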