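import Vale.Agent.P133.H216.Rad
import Vale.Agent.P133.H681.Generic2

/-!
P133 (helper216): a minimal counterexample to question (b) is a finite C*-algebra.
-/

open scoped ComplexOrder

namespace Vale.Agent.P133.H216

open Vale.Agent.P133 Vale.Agent.P133.Statement Vale.Agent.P133.H832 Vale.Agent.P133F
  Vale.Agent.P133.H681 Vale.Agent.P133.R2.H28 Vale.Agent.P133.R2.H28.H645

universe u

section

variable {A : Type u} [CStarAlgebra A] [PartialOrder A] [StarOrderedRing A]

/-- a closed ideal of a unital algebra as a `CIdeal` -/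
def toCI {J : Submodule ℂ A} (hJ : IsClosedIdeal J) : CIdeal A where
  toSub := J
  mul_left' a x h := (hJ.2 a x h).1
  mul_right' a x h := (hJ.2 a x h).2
  star_mem' _ h := hJ.star_mem h
  closed' := hJ.1

/-- If the unit is properly infinite modulo every nonzero closed ideal, then all its multiples
are below `1 ⊕ x`, for every `x ≥ 0`, `x ≠ 0`. -/
theorem one_add (hW : WeaklyPurelyInfinite A)
    (hc : ∀ J : Submodule ℂ A, IsClosedIdeal J → J ≠ ⊥ → PIMod J (1 : A)) {x : A} (hx : 0 ≤ x)
    (hx0 : x ≠ 0) (m : ℕ) {ε : ℝ} (hε : 0 < ε) : ∃ r t : Fin m → A, ∀ i j,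
      ‖star (r i) * r j + star (t i) * x * t j - (if i = j then 1 else 0)‖ < ε := by
  obtain ⟨c, hc0, hcne, hxc⟩ := exists_below hW hx (isClosedIdeal_bot (A := A))
    (by rw [Submodule.mem_bot]; exact hx0)
  rw [Submodule.mem_bot] at hcne
  have hxc' : InfB x c := infB_of_allBelow hc0 hxc
  obtain ⟨J, hJ, hJ'⟩ := isClosedIdeal_inId c
  have hcJ : c ∈ J := (hJ' c).2 (InId.refl c)
  have hJne : J ≠ ⊥ := by
    rintro rfl
    exact hcne ((Submodule.mem_bot ℂ).1 hcJ)
  have hε3 : 0 < ε / 3 := by positivity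
  obtain ⟨r0, hr0⟩ := hc J hJ hJne m (ε / 3) hε3
  choose k hkJ hk using hr0
  obtain ⟨e, he, hke⟩ := exists_approx_unit (toCI hJ)
    (c := fun p : Fin m × Fin m => k p.1 p.2) (fun p => hkJ p.1 p.2) hε3
  have he1 : ‖(1 : A) - e‖ ≤ 1 := norm_one_sub_le he.nonneg he.le_one
  have hes : star e = e := he.star_eq
  have hes1 : star (1 - e) = 1 - e := by rw [star_sub, star_one, hes]
  set d : A := 1 - (1 - e) * (1 - e) with hd
  have hd0 : 0 ≤ d := by
    have h1 : (1 - e) * (1 - e) ≤ 1 := by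
      have h2 := CStarAlgebra.star_left_conjugate_le_norm_smul (a := (1 : A))
        (b := (1 - e) * (1 - e)) (by
          rw [IsSelfAdjoint, star_mul, hes1])
      rw [star_one, one_mul, mul_one, one_mul] at h2
      refine h2.trans ?_
      have h3 : ‖(1 - e) * (1 - e)‖ ≤ 1 := by
        refine (norm_mul_le _ _).trans ?_
        exact mul_le_one₀ he1 (norm_nonneg _) he1
      calc ‖(1 - e) * (1 - e)‖ • (1 : A) ≤ (1 : ℝ) • (1 : A) :=
            smul_le_smul_of_nonneg_right h3 one_nonneg'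
        _ = 1 := one_smul _ _
    exact sub_nonneg.2 h1
  have hdJ : d ∈ J := by
    have h1 : d = e + (1 - e) * e := by rw [hd]; noncomm_ring
    rw [h1]
    exact J.add_mem he.mem (hJ.2 _ _ he.mem).1
  have hxd : InfB x d := hxc'.sub (H832.subId_of_inId' hc0 hd0 ((hJ' d).1 hdJ))
  obtain ⟨t, ht⟩ := hxd.2 m (ε / 3) hε3
  refine ⟨fun i => r0 i * (1 - e), t, fun i j => ?_⟩
  have h1 : star (r0 i * (1 - e)) * (r0 j * (1 - e)) + star (t i) * x * t j -
      (if i = j then 1 else 0) =
      (1 - e) * (star (r0 i) * 1 * r0 j - (if i = j then 1 else 0) - k i j) * (1 - e) +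
        (1 - e) * k i j * (1 - e) + (star (t i) * x * t j - (if i = j then d else 0)) := by
    rw [star_mul, hes1, hd]
    split_ifs <;> noncomm_ring
  rw [h1]
  have h2 : ‖(1 - e) * (star (r0 i) * 1 * r0 j - (if i = j then 1 else 0) - k i j) * (1 - e)‖ <
      ε / 3 := by
    refine lt_of_le_of_lt ?_ (hk i j)
    calc _ ≤ 1 * ‖star (r0 i) * 1 * r0 j - (if i = j then 1 else 0) - k i j‖ * 1 := by
          refine (norm_mul_le _ _).trans ?_
          gcongr
          refine (norm_mul_le _ _).trans ?_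
          gcongr
      _ = _ := by rw [one_mul, mul_one]
  have h3 : ‖(1 - e) * k i j * (1 - e)‖ < ε / 3 := by
    refine lt_of_le_of_lt ?_ (hke (i, j)).2
    calc _ ≤ ‖(1 - e) * k i j‖ * 1 := by
          refine (norm_mul_le _ _).trans ?_
          gcongr
      _ = _ := mul_one _
  calc _ ≤ _ := (norm_add_le _ _).trans (add_le_add (norm_add_le _ _) le_rfl)
    _ < ε / 3 + ε / 3 + ε / 3 := add_lt_add (add_lt_add h2 h3) (ht i j)
    _ = ε := by ring

/-- If the unit is properly infinite modulo every nonzero closed ideal and some isometry is not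
unitary, then the unit is properly infinite. -/
theorem infB_of_isometry (hW : WeaklyPurelyInfinite A)
    (hc : ∀ J : Submodule ℂ A, IsClosedIdeal J → J ≠ ⊥ → PIMod J (1 : A)) {v : A}
    (hv : star v * v = 1) (hv' : v * star v ≠ 1) : InfB (1 : A) 1 := by
  set x : A := 1 - v * star v with hx
  have hxs : star x = x := by rw [hx, star_sub, star_one, star_mul, star_star]
  have hvx : star v * x = 0 := by
    rw [hx, mul_sub, mul_one, ← mul_assoc, hv, one_mul, sub_self]
  have hxv : x * v = 0 := by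
    rw [hx, sub_mul, one_mul, mul_assoc, hv, mul_one, sub_self]
  have hxx : x * x = x := by
    conv_lhs => rw [hx]
    rw [sub_mul, one_mul, mul_assoc, hvx, mul_zero, sub_zero]
  have hx0 : 0 ≤ x := by
    have := star_mul_self_nonneg x
    rwa [hxs, hxx] at this
  have hxne : x ≠ 0 := fun h => hv' (sub_eq_zero.1 h).symm
  refine ⟨one_nonneg', fun m ε hε => ?_⟩
  obtain ⟨r, t, hrt⟩ := one_add hW hc hx0 hxne m hε
  refine ⟨fun i => v * r i + x * t i, fun i j => ?_⟩
  have h1 : star (v * r i + x * t i) * 1 * (v * r j + x * t j) =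
      star (r i) * r j + star (t i) * x * t j := by
    have e1 : star (v * r i + x * t i) * 1 * (v * r j + x * t j) =
        star (r i) * (star v * v) * r j + star (r i) * (star v * x) * t j +
          star (t i) * (x * v) * r j + star (t i) * (x * x) * t j := by
      rw [star_add, star_mul, star_mul, hxs]
      noncomm_ring
    rw [e1, hv, hvx, hxv, hxx]
    noncomm_ring
  rw [h1]
  exact hrt i j

/-- a properly infinite unit gives an isometry that is not unitary -/
theorem exists_isometry [Nontrivial A] (h : InfB (1 : A) 1) :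
    ∃ v : A, star v * v = 1 ∧ v * star v ≠ 1 := by
  obtain ⟨r, hr⟩ := h.2 2 (1 / 8) (by norm_num)
  set x : A := r 0 with hx
  set y : A := r 1 with hy
  have h00 : ‖star x * x - 1‖ < 1 / 8 := by simpa using hr 0 0
  have h11 : ‖star y * y - 1‖ < 1 / 8 := by simpa using hr 1 1
  have h01 : ‖star x * y‖ < 1 / 8 := by simpa using hr 0 1
  set W : A := star x * x with hW
  have hWs : IsSelfAdjoint W := IsSelfAdjoint.star_mul_self x
  have hspec : ∀ s ∈ spectrum ℝ W, 1 / 2 ≤ s := by
    refine (algebraMap_le_iff_le_spectrum (p := IsSelfAdjoint)).1 ?_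
    have h1 : -(W - 1) ≤ algebraMap ℝ A ‖-(W - 1)‖ :=
      IsSelfAdjoint.le_algebraMap_norm_self (a := -(W - 1))
        ((hWs.sub (IsSelfAdjoint.one A)).neg)
    rw [norm_neg] at h1
    have h2 : algebraMap ℝ A ‖W - 1‖ ≤ algebraMap ℝ A (1 / 8) := algebraMap_mono A h00.le
    have h3 : algebraMap ℝ A (1 / 2) ≤ 1 - algebraMap ℝ A (1 / 8) := by
      rw [← map_one (algebraMap ℝ A), ← map_sub]
      exact algebraMap_mono A (by norm_num)
    have h4 := h1.trans h2
    rw [neg_sub] at h4
    have h5 : 1 - algebraMap ℝ A (1 / 8) ≤ W := by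
      rw [sub_le_iff_le_add] at h4 ⊢
      rwa [add_comm]
    exact h3.trans h5
  set g : ℝ → ℝ := fun s => (Real.sqrt (max s (1 / 2)))⁻¹ with hg
  have hpos : ∀ s : ℝ, 0 < Real.sqrt (max s (1 / 2)) := fun s =>
    Real.sqrt_pos.2 (lt_of_lt_of_le (by norm_num) (le_max_right _ _))
  have hgc : Continuous g := by
    refine Continuous.inv₀ ?_ fun s => (hpos s).ne'
    exact Real.continuous_sqrt.comp (continuous_id.max continuous_const)
  set G : A := cfc g W with hG
  have hGs : star G = G := (cfc_predicate (p := IsSelfAdjoint) g W).star_eq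
  have hGWG : G * W * G = 1 := by
    have e1 : G * W * G = cfc (fun s => g s * s * g s) W := by
      rw [cfc_mul (fun s => g s * s) g W (hgc.mul continuous_id).continuousOn hgc.continuousOn,
        cfc_mul g (fun s : ℝ => s) W hgc.continuousOn (by fun_prop), cfc_id' ℝ W]
    rw [e1, cfc_congr (g := fun _ : ℝ => 1), cfc_const_one ℝ W]
    intro s hs
    have hs8 := hspec s hs
    have h2 : Real.sqrt s ≠ 0 := (Real.sqrt_pos.2 (lt_of_lt_of_le (by norm_num) hs8)).ne'
    simp only [hg, max_eq_left hs8]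
    have h3 : Real.sqrt s * Real.sqrt s = s := Real.mul_self_sqrt (by linarith)
    calc (Real.sqrt s)⁻¹ * s * (Real.sqrt s)⁻¹ =
          (Real.sqrt s)⁻¹ * (Real.sqrt s * Real.sqrt s) * (Real.sqrt s)⁻¹ := by rw [h3]
      _ = 1 := by field_simp
  have hGn : ‖G‖ ≤ 2 := by
    refine norm_cfc_le (by norm_num) fun s _ => ?_
    rw [Real.norm_of_nonneg (inv_nonneg.2 (hpos s).le)]
    have h1 : (1 / 2 : ℝ) ≤ Real.sqrt (max s (1 / 2)) := by
      refine Real.le_sqrt_of_sq_le ?_
      exact le_trans (by norm_num) (le_max_right s (1 / 2))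
    calc (Real.sqrt (max s (1 / 2)))⁻¹ ≤ (1 / 2 : ℝ)⁻¹ := inv_anti₀ (by norm_num) h1
      _ = 2 := by norm_num
  refine ⟨x * G, ?_, fun h1 => ?_⟩
  · rw [star_mul, hGs]
    calc G * star x * (x * G) = G * (star x * x) * G := by simp only [mul_assoc]
      _ = 1 := hGWG
  · have h2 : y = (x * G) * (G * (star x * y)) := by
      calc y = ((x * G) * star (x * G)) * y := by rw [h1, one_mul]
        _ = _ := by rw [star_mul, hGs]; simp only [mul_assoc]
    have hvn : ‖x * G‖ ≤ 1 := by
      have h3 : star (x * G) * (x * G) = 1 := by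
        rw [star_mul, hGs]
        calc G * star x * (x * G) = G * (star x * x) * G := by simp only [mul_assoc]
          _ = 1 := hGWG
      have h4 := CStarRing.norm_star_mul_self (x := x * G)
      rw [h3, CStarRing.norm_one] at h4
      nlinarith [norm_nonneg (x * G)]
    have h3 : ‖y‖ ≤ 1 / 4 := by
      calc ‖y‖ = ‖(x * G) * (G * (star x * y))‖ := by rw [← h2]
        _ ≤ ‖x * G‖ * (‖G‖ * ‖star x * y‖) :=
            (norm_mul_le _ _).trans (by gcongr; exact norm_mul_le _ _)
        _ ≤ 1 * (2 * (1 / 8)) := by gcongr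
        _ = 1 / 4 := by norm_num
    have h4 : ‖star y * y‖ ≤ 1 / 16 := by
      rw [CStarRing.norm_star_mul_self]
      nlinarith [norm_nonneg y]
    have h5 : ‖(1 : A)‖ ≤ ‖star y * y‖ + ‖star y * y - 1‖ := by
      have h6 : (1 : A) = star y * y - (star y * y - 1) := by abel
      conv_lhs => rw [h6]
      exact norm_sub_le _ _
    rw [CStarRing.norm_one] at h5
    linarith

end

/-- critical algebras -/
structure Crit (B : Type u) [CStarAlgebra B] [PartialOrder B] [StarOrderedRing B] : Prop where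
  wpi : WeaklyPurelyInfinite B
  ne : ¬ InfB (1 : B) 1
  min : ∀ J : Submodule ℂ B, IsClosedIdeal J → J ≠ ⊥ → PIMod J (1 : B)

theorem exists_crit {A : Type u} [CStarAlgebra A] [PartialOrder A] [StarOrderedRing A]
    (hW : WeaklyPurelyInfinite A) (h : ¬ InfB (1 : A) 1) :
    ∃ (B : Type u) (_ : CStarAlgebra B) (_ : PartialOrder B) (_ : StarOrderedRing B)
      (φ : A →⋆ₐ[ℂ] B), Function.Surjective φ ∧ Crit B := by
  obtain ⟨n, hn⟩ := wpi_elementwise hW
  obtain ⟨J, hJ, hJ1, hmax⟩ := exists_critical hn h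
  let I : CIdeal A := toCI hJ
  let φ : A →⋆ₙₐ[ℂ] Quo I := (Quo.qm I : A →⋆ₙₐ[ℂ] Quo I)
  have hφ : Function.Surjective φ := fun x => by
    obtain ⟨a, ha, -⟩ := Quo.exists_qm_norm_lt x one_pos
    exact ⟨a, ha⟩
  have hk : ∀ x, φ x = 0 ↔ x ∈ J := fun x => Quo.qm_eq_zero
  refine ⟨Quo I, inferInstance, inferInstance, inferInstance, Quo.qm I, hφ,
    wpi_of_surj φ hφ hW, fun h1 => hJ1 (piMod_of_infB hφ hk ?_), fun K hK hK0 => ?_⟩
  · have h2 : φ 1 = 1 := map_one (Quo.qm I)
    rw [h2]; exact h1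
  · let P : Submodule ℂ A := K.comap (φ : A →ₗ[ℂ] Quo I)
    have hPm : ∀ y, y ∈ P ↔ φ y ∈ K := fun y => Iff.rfl
    have hP : IsClosedIdeal P := by
      refine ⟨hK.1.preimage (map_continuous φ), fun a y hy => ?_⟩
      rw [hPm] at hy
      refine ⟨?_, ?_⟩
      · rw [hPm, map_mul]; exact (hK.2 _ _ hy).1
      · rw [hPm, map_mul]; exact (hK.2 _ _ hy).2
    have hJP : J ≤ P := fun y hy => by
      rw [hPm, (hk y).2 hy]; exact K.zero_mem
    have hne : P ≠ J := by
      rintro h1
      refine hK0 ((Submodule.eq_bot_iff _).2 fun z hz => ?_)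
      obtain ⟨y, rfl⟩ := hφ z
      have h2 : y ∈ J := by rw [← h1]; exact hz
      exact (hk y).2 h2
    intro m ε hε
    obtain ⟨r, hr⟩ := hmax P hP hJP hne m ε hε
    refine ⟨fun i => φ (r i), fun i j => ?_⟩
    obtain ⟨k, hkP, h1⟩ := hr i j
    refine ⟨φ k, hkP, ?_⟩
    have h2 : star (φ (r i)) * 1 * φ (r j) - (if i = j then 1 else 0) - φ k =
        φ (star (r i) * 1 * r j - (if i = j then 1 else 0) - k) := by
      have h3 : φ 1 = 1 := map_one (Quo.qm I)
      rw [map_sub, map_sub, map_mul, map_mul, map_star, h3]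
      split_ifs
      · rw [h3]
      · rw [map_zero]
    rw [h2]
    exact (NonUnitalStarAlgHom.norm_apply_le φ _).trans_lt h1

theorem nontrivial_of_not {B : Type u} [CStarAlgebra B] [PartialOrder B] [StarOrderedRing B]
    (h : ¬ InfB (1 : B) 1) : Nontrivial B := by
  by_contra hB
  rw [not_nontrivial_iff_subsingleton] at hB
  refine h ⟨one_nonneg', fun m ε hε => ⟨fun _ => 0, fun i j => ?_⟩⟩
  have h1 : star (0 : B) * 1 * 0 - (if i = j then 1 else 0) = 0 := Subsingleton.elim _ _
  rw [h1, norm_zero]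
  exact hε

/-- isometries of a critical algebra are unitary -/
theorem Crit.unitary {B : Type u} [CStarAlgebra B] [PartialOrder B] [StarOrderedRing B]
    (h : Crit B) {v : B} (hv : star v * v = 1) : v * star v = 1 := by
  by_contra hv'
  exact h.ne (infB_of_isometry h.wpi h.min hv hv')

/-- the maximal closed ideals of a critical algebra have intersection zero -/
theorem Crit.rad {B : Type u} [CStarAlgebra B] [PartialOrder B] [StarOrderedRing B]
    (h : Crit B) {x : B} (hx : ∀ M : Submodule ℂ B, IsMaxIdeal M → x ∈ M) : x = 0 := by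
  by_contra hx0
  obtain ⟨n, hn⟩ := wpi_elementwise h.wpi
  obtain ⟨I, hI, hI'⟩ := isClosedIdeal_inId x
  have hxI : x ∈ I := (hI' x).2 (InId.refl x)
  refine h.ne (infB_one_of_rad hn (J := I) (fun M hM y hy => ?_) (h.min I hI ?_))
  · exact hM.1.inId (hx M hM) ((hI' y).1 hy)
  · rintro rfl
    exact hx0 ((Submodule.mem_bot ℂ).1 hxI)

theorem infB_of_pi {A : Type u} [NonUnitalCStarAlgebra A] [PartialOrder A] [StarOrderedRing A]
    (hA : PurelyInfinite A) {a : A} (ha : 0 ≤ a) : InfB a a := by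
  have h1 : ∀ h : A, 0 ≤ h → ProperlyInfiniteMat (diagN 1 h) := by
    intro h h0
    have h1 := hA h h0
    have e1 : dsum (diagN 1 h) (diagN 1 h) = CStarMatrix.ofMatrix !![h, 0; 0, h] := by
      ext i j
      fin_cases i <;> fin_cases j <;>
        simp [dsum, diagN, finSumFinEquiv, Fin.addCases, Matrix.fromBlocks]
    have e2 : dsum (diagN 1 h) (0 : CStarMatrix (Fin 1) (Fin 1) A) =
        CStarMatrix.ofMatrix !![h, 0; 0, 0] := by
      ext i j
      fin_cases i <;> fin_cases j <;>
        simp [dsum, diagN, finSumFinEquiv, Fin.addCases, Matrix.fromBlocks]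
    rw [ProperlyInfiniteMat, e1, e2]
    exact h1
  have h2 : WPI A 1 := Vale.Agent.P133.R2.H905.wpi_n h1 le_rfl
  refine ⟨ha, fun m ε hε => ?_⟩
  obtain ⟨z, hz⟩ := h2 a ha m ε hε
  refine ⟨z 0, fun i j => ?_⟩
  have h3 := hz i j
  rwa [Fin.sum_univ_one] at h3

/-- Question (b) is the question whether unital weakly purely infinite C*-algebras are
infinite. -/
theorem finite_iff :
    (∀ (A : Type u) [NonUnitalCStarAlgebra A] [PartialOrder A] [StarOrderedRing A],
      WeaklyPurelyInfinite A → PurelyInfinite A) ↔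
    ∀ (A : Type u) [CStarAlgebra A] [PartialOrder A] [StarOrderedRing A] [Nontrivial A],
      WeaklyPurelyInfinite A → ∃ v : A, star v * v = 1 ∧ v * star v ≠ 1 := by
  constructor
  · intro H A _ _ _ _ hW
    exact exists_isometry (infB_of_pi (H A hW) one_nonneg')
  · intro H
    rw [unital_iff]
    intro A _ _ _ hW
    have h1 : InfB (1 : A) 1 := by
      by_contra hcon
      obtain ⟨B, i1, i2, i3, φ, hφ, hB⟩ := exists_crit hW hcon
      have := nontrivial_of_not hB.ne
      obtain ⟨v, hv, hv'⟩ := H B hB.wpi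
      exact hv' (hB.unitary hv)
    have h2 : PIMod (⊥ : Submodule ℂ A) (1 : A) := fun m ε hε => by
      obtain ⟨r, hr⟩ := h1.2 m ε hε
      exact ⟨r, fun i j => ⟨0, Submodule.zero_mem _, by rw [sub_zero]; exact hr i j⟩⟩
    obtain ⟨x, hx, ho, hxP⟩ := fam_of_piMod h2 2
    refine Vale.Agent.P133.R2.H328.orth_full_iff.1
      ⟨x 0, x 1, hx 0, hx 1, ho 0 1 (by decide), ?_, ?_⟩
    · obtain ⟨I, hI, hI'⟩ := isClosedIdeal_inId (x 0)
      exact (hI' _).1 (hxP 0 I hI bot_le ((hI' _).2 (InId.refl _)))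
    · obtain ⟨I, hI, hI'⟩ := isClosedIdeal_inId (x 1)
      exact (hI' _).1 (hxP 1 I hI bot_le ((hI' _).2 (InId.refl _)))

end Vale.Agent.P133.H216
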