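import Vale.Agent.P133.SDefs
import Vale.Agent.P133F.Defs
import Vale.Agent.P133.H832.TameDef
import Vale.Agent.P133.H832.ChainDef
import Vale.Agent.P133.H512.IndDef
import Vale.Agent.P133.R2.H28.Defs

/-!
P133 (helper216): definition of the minimal counterexamples to question (b).
-/

open scoped ComplexOrder

namespace Vale.Agent.P133.H216

open Vale.Agent.P133.Statement Vale.Agent.P133F Vale.Agent.P133.H832 Vale.Agent.P133.H512

universe u

/-- `M` is a maximal closed two-sided ideal of the unital C*-algebra `D`. -/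
def IsMaxC {D : Type u} [CStarAlgebra D] (M : Submodule ℂ D) : Prop :=
  IsClosedIdeal M ∧ M ≠ ⊤ ∧ ∀ P : Submodule ℂ D, IsClosedIdeal P → M ≤ P → P = M ∨ P = ⊤

/-- `B` contains two isometries with orthogonal ranges. -/
def TwoIsometries (B : Type u) [CStarAlgebra B] : Prop :=
  ∃ s t : B, star s * s = 1 ∧ star t * t = 1 ∧ star s * t = 0

/-- Every isometry is unitary. -/
def IsFinite (D : Type u) [CStarAlgebra D] : Prop :=
  ∀ v : D, star v * v = 1 → v * star v = 1

/-- Every proper quotient contains two isometries with orthogonal ranges. -/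
def ProperQuotients (D : Type u) [CStarAlgebra D] : Prop :=
  ∀ (B : Type u) [CStarAlgebra B] (φ : D →⋆ₐ[ℂ] B), Function.Surjective φ →
    ¬ Function.Injective φ → TwoIsometries B

/-- All multiples of the unit are Cuntz below `1 ⊕ x`. -/
def OneAdd (D : Type u) [CStarAlgebra D] (x : D) : Prop :=
  ∀ (m : ℕ) (ε : ℝ), 0 < ε → ∃ r t : Fin m → D, ∀ i j,
    ‖star (r i) * r j + star (t i) * x * t j - (if i = j then 1 else 0)‖ < ε

/-- There are two orthogonal full positive elements. -/
def TwoFull (D : Type u) [CStarAlgebra D] [PartialOrder D] : Prop :=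
  ∃ x y : D, 0 ≤ x ∧ 0 ≤ y ∧ x * y = 0 ∧ InId x 1 ∧ InId y 1

/-- `E` is an essential closed ideal. -/
def IsEssential {D : Type u} [NonUnitalCStarAlgebra D] (E : Submodule ℂ D) : Prop :=
  IsClosedIdeal E ∧ ∀ x : D, (∀ y ∈ E, x * y = 0) → x = 0

/-- A critical C*-algebra `D`: nonzero, unital, weakly purely infinite, finite, while every
proper quotient contains two isometries with orthogonal ranges; and further properties. -/
structure IsCritical (D : Type u) [CStarAlgebra D] [PartialOrder D] [StarOrderedRing D] :
    Prop where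
  /-- `D` is not zero -/
  nontrivial : (1 : D) ≠ 0
  /-- `D` is weakly purely infinite -/
  wpi : WeaklyPurelyInfinite D
  /-- `D` is finite -/
  finite : IsFinite D
  /-- every proper quotient contains two isometries with orthogonal ranges -/
  quotient : ProperQuotients D
  /-- the intersection of the maximal closed ideals is zero -/
  radical : ∀ x : D, (∀ M : Submodule ℂ D, IsMaxC M → x ∈ M) → x = 0
  /-- all multiples of the unit are below `1 ⊕ x` -/
  add : ∀ x : D, 0 ≤ x → x ≠ 0 → OneAdd D x
  /-- there are two orthogonal full positive elements -/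
  two : TwoFull D
  /-- a splitting of the ideal lattice has a bad boundary -/
  split : ∀ I L : Submodule ℂ D, IsClosedIdeal I → IsClosedIdeal L → I ≠ ⊥ → L ≠ ⊥ →
    I ⊓ L = ⊥ → ¬ PiQuot (I ⊔ L)
  /-- the quotient by some essential closed ideal is not purely infinite -/
  essential : ∃ E : Submodule ℂ D, IsEssential E ∧ ¬ PiQuot E

/-- The kernel of `φ` is superfluous at `a`: if `(a - δ)₊` is in the closed ideal generated by the
closed ideal `I` and the kernel, then it is in `I`. -/
def Superfluous {A B : Type u} [NonUnitalCStarAlgebra A] [PartialOrder A] [StarOrderedRing A]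
    [NonUnitalCStarAlgebra B] (φ : A →⋆ₙₐ[ℂ] B) (a : A) : Prop :=
  ∀ δ : ℝ, 0 < δ → ∀ I : Submodule ℂ A, IsClosedIdeal I →
    (∀ P : Submodule ℂ A, IsClosedIdeal P → I ≤ P → (∀ x, φ x = 0 → x ∈ P) →
      Vale.Agent.P133.R2.H28.cut a δ ∈ P) → Vale.Agent.P133.R2.H28.cut a δ ∈ I

end Vale.Agent.P133.H216
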