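import Vale.Agent.P133.H216.Two
import Vale.Agent.P133.H216.CritDef
import Vale.Agent.P133.H512.Clause

/-!
P133 (helper216): question (b) holds if and only if there are no critical C*-algebras.
-/

open scoped ComplexOrder

namespace Vale.Agent.P133.H216

open Vale.Agent.P133 Vale.Agent.P133.Statement Vale.Agent.P133.H832 Vale.Agent.P133F
  Vale.Agent.P133.H681 Vale.Agent.P133.R2.H28 Vale.Agent.P133.R2.H28.H645
  Vale.Agent.P133.H512 Vale.Agent.P133.H330

universe u

section

variable {A : Type u} [CStarAlgebra A] [PartialOrder A] [StarOrderedRing A]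

/-- an element which is nearly an isometry gives an isometry -/
theorem exists_polar {x : A} (h00 : ‖star x * x - 1‖ ≤ 1 / 2) :
    ∃ G : A, star (x * G) * (x * G) = 1 ∧ ‖G‖ ≤ 2 ∧ star G = G := by
  set W : A := star x * x with hW
  have hWs : IsSelfAdjoint W := IsSelfAdjoint.star_mul_self x
  have hspec : ∀ s ∈ spectrum ℝ W, 1 / 2 ≤ s := by
    refine (algebraMap_le_iff_le_spectrum (p := IsSelfAdjoint)).1 ?_
    have h1 : -(W - 1) ≤ algebraMap ℝ A ‖-(W - 1)‖ :=
      IsSelfAdjoint.le_algebraMap_norm_self (a := -(W - 1))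
        ((hWs.sub (IsSelfAdjoint.one A)).neg)
    rw [norm_neg] at h1
    have h2 : algebraMap ℝ A ‖W - 1‖ ≤ algebraMap ℝ A (1 / 2) := algebraMap_mono A h00
    have h3 : algebraMap ℝ A (1 / 2) ≤ 1 - algebraMap ℝ A (1 / 2) := by
      rw [← map_one (algebraMap ℝ A), ← map_sub]
      exact algebraMap_mono A (by norm_num)
    have h4 := h1.trans h2
    rw [neg_sub] at h4
    have h5 : 1 - algebraMap ℝ A (1 / 2) ≤ W := by
      rw [sub_le_iff_le_add] at h4 ⊢
      rwa [add_comm]
    exact h3.trans h5
  set g : ℝ → ℝ := fun s => (Real.sqrt (max s (1 / 2)))⁻¹ with hg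
  have hpos : ∀ s : ℝ, 0 < Real.sqrt (max s (1 / 2)) := fun s =>
    Real.sqrt_pos.2 (lt_of_lt_of_le (by norm_num) (le_max_right _ _))
  have hgc : Continuous g := by
    refine Continuous.inv₀ ?_ fun s => (hpos s).ne'
    exact Real.continuous_sqrt.comp (continuous_id.max continuous_const)
  set G : A := cfc g W with hG
  have hGs : star G = G := (cfc_predicate (p := IsSelfAdjoint) g W).star_eq
  have hGWG : G * W * G = 1 := by
    have e1 : G * W * G = cfc (fun s => g s * s * g s) W := by
      rw [cfc_mul (fun s => g s * s) g W (hgc.mul continuous_id).continuousOn hgc.continuousOn,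
        cfc_mul g (fun s : ℝ => s) W hgc.continuousOn (by fun_prop), cfc_id' ℝ W]
    rw [e1, cfc_congr (g := fun _ : ℝ => 1), cfc_const_one ℝ W]
    intro s hs
    have hs8 := hspec s hs
    have h2 : Real.sqrt s ≠ 0 := (Real.sqrt_pos.2 (lt_of_lt_of_le (by norm_num) hs8)).ne'
    simp only [hg, max_eq_left hs8]
    have h3 : Real.sqrt s * Real.sqrt s = s := Real.mul_self_sqrt (by linarith)
    calc (Real.sqrt s)⁻¹ * s * (Real.sqrt s)⁻¹ =
          (Real.sqrt s)⁻¹ * (Real.sqrt s * Real.sqrt s) * (Real.sqrt s)⁻¹ := by rw [h3]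
      _ = 1 := by field_simp
  have hGn : ‖G‖ ≤ 2 := by
    refine norm_cfc_le (by norm_num) fun s _ => ?_
    rw [Real.norm_of_nonneg (inv_nonneg.2 (hpos s).le)]
    have h1 : (1 / 2 : ℝ) ≤ Real.sqrt (max s (1 / 2)) := by
      refine Real.le_sqrt_of_sq_le ?_
      exact le_trans (by norm_num) (le_max_right s (1 / 2))
    calc (Real.sqrt (max s (1 / 2)))⁻¹ ≤ (1 / 2 : ℝ)⁻¹ := inv_anti₀ (by norm_num) h1
      _ = 2 := by norm_num
  refine ⟨G, ?_, hGn, hGs⟩
  rw [star_mul, hGs]
  calc G * star x * (x * G) = G * (star x * x) * G := by simp only [mul_assoc]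
    _ = 1 := hGWG

/-- a properly infinite unit gives two isometries with orthogonal ranges -/
theorem exists_isometries [Nontrivial A] (h : InfB (1 : A) 1) :
    ∃ s t : A, star s * s = 1 ∧ star t * t = 1 ∧ star s * t = 0 := by
  obtain ⟨r, hr⟩ := h.2 2 (1 / 8) (by norm_num)
  set x : A := r 0 with hx
  set y : A := r 1 with hy
  have h00 : ‖star x * x - 1‖ < 1 / 8 := by simpa using hr 0 0
  have h11 : ‖star y * y - 1‖ < 1 / 8 := by simpa using hr 1 1
  have h01 : ‖star x * y‖ < 1 / 8 := by simpa using hr 0 1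
  obtain ⟨G, hG, hGn, hGs⟩ := exists_polar (h00.le.trans (by norm_num))
  set s : A := x * G with hs
  have hsy : ‖star s * y‖ ≤ 1 / 4 := by
    rw [hs, star_mul, hGs, mul_assoc]
    calc ‖G * (star x * y)‖ ≤ ‖G‖ * ‖star x * y‖ := norm_mul_le _ _
      _ ≤ 2 * (1 / 8) := by gcongr
      _ = 1 / 4 := by norm_num
  set y' : A := y - s * (star s * y) with hy'
  have h1 : star s * y' = 0 := by
    rw [hy', mul_sub, ← mul_assoc, hG, one_mul, sub_self]
  have h2 : star y' * y' = star y * y - star (star s * y) * (star s * y) := by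
    have e1 : star y' = star y - star (star s * y) * star s := by
      rw [hy', star_sub, star_mul]
    have e2 : star y' * y' = star y * y' - star (star s * y) * (star s * y') := by
      rw [e1, sub_mul, mul_assoc]
    rw [e2, h1, mul_zero, sub_zero, hy', mul_sub]
    congr 1
    rw [star_mul (star s) y, star_star]
    simp only [mul_assoc]
  have h3 : ‖star y' * y' - 1‖ ≤ 1 / 2 := by
    rw [h2]
    have e1 : star y * y - star (star s * y) * (star s * y) - 1 =
        (star y * y - 1) - star (star s * y) * (star s * y) := by abel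
    rw [e1]
    calc _ ≤ ‖star y * y - 1‖ + ‖star (star s * y) * (star s * y)‖ := norm_sub_le _ _
      _ ≤ 1 / 8 + 1 / 4 * (1 / 4) := by
          refine add_le_add h11.le ((norm_mul_le _ _).trans ?_)
          rw [norm_star]
          gcongr
      _ ≤ 1 / 2 := by norm_num
  obtain ⟨G', hG', -, -⟩ := exists_polar h3
  exact ⟨s, y' * G', hG, hG', by rw [← mul_assoc, h1, zero_mul]⟩

end

section

variable {D : Type u} [CStarAlgebra D] [PartialOrder D] [StarOrderedRing D]

/-- two orthogonal isometries make the unit properly infinite -/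
theorem not_crit_of_isometry (hD : IsCritical D) (h : InfB (1 : D) 1) : False := by
  have : Nontrivial D := ⟨1, 0, hD.nontrivial⟩
  obtain ⟨v, hv, hv'⟩ := exists_isometry h
  exact hv' (hD.finite v hv)

/-- the critical algebras of `exists_crit` have all the properties of `IsCritical` -/
theorem Crit.isCritical (h : Crit D) : IsCritical D := by
  have hnt : Nontrivial D := nontrivial_of_not h.ne
  refine ⟨one_ne_zero, h.wpi, fun v hv => h.unitary hv, fun B _ φ hφ hi => ?_,
    fun x hx => h.rad hx, fun x hx hx0 m ε hε => one_add h.wpi h.min hx hx0 m hε, h.two,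
    fun I L hI hL hI0 hL0 hIL hq => ?_, ?_⟩
  · let i1 : PartialOrder B := CStarAlgebra.spectralOrder B
    have i2 : StarOrderedRing B := CStarAlgebra.spectralOrderedRing B
    let φ' : D →⋆ₙₐ[ℂ] B := φ
    let J : Submodule ℂ D := LinearMap.ker (φ : D →ₗ[ℂ] B)
    have hm : ∀ x, x ∈ J ↔ φ x = 0 := fun x => LinearMap.mem_ker
    have hJ : IsClosedIdeal J := by
      refine ⟨?_, fun b x hx => ⟨?_, ?_⟩⟩
      · have e : (J : Set D) = φ' ⁻¹' {0} := by
          ext x; exact hm x
        rw [e]
        exact isClosed_singleton.preimage (map_continuous φ')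
      · rw [hm] at hx ⊢; rw [map_mul, hx, mul_zero]
      · rw [hm] at hx ⊢; rw [map_mul, hx, zero_mul]
    have hJ0 : J ≠ ⊥ := by
      intro h0
      refine hi fun x y hxy => ?_
      have h1 : x - y ∈ J := by rw [hm, map_sub, hxy, sub_self]
      rw [h0, Submodule.mem_bot] at h1
      exact sub_eq_zero.1 h1
    have h1 : InfB (φ' 1) (φ' 1) := infB_of_piMod (φ := φ') (fun x => (hm x).symm)
      one_nonneg' (h.min J hJ hJ0)
    have h2 : φ' 1 = 1 := map_one φ
    rw [h2] at h1
    by_cases hB : Nontrivial B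
    · exact exists_isometries h1
    · rw [not_nontrivial_iff_subsingleton] at hB
      exact ⟨0, 0, Subsingleton.elim _ _, Subsingleton.elim _ _, Subsingleton.elim _ _⟩
  · obtain ⟨n, hn⟩ := wpi_elementwise h.wpi
    obtain ⟨B, i1, i2, i3, φ, hφ, hk, hB⟩ := hq
    refine h.ne (rowsMod_bot one_nonneg' fun m ε hε => ?_)
    refine rowsMod_all hn isClosedIdeal_bot one_nonneg' (fun δ hδ => ?_) m hε
    have hrow : ∀ J : Submodule ℂ D, IsClosedIdeal J → J ≠ ⊥ → ∀ ε : ℝ, 0 < ε →
        RowsMod J (1 : D) 1 (n + n) ε := by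
      intro J hJ hJ0 ε hε
      obtain ⟨r, hr⟩ := h.min J hJ hJ0 (n + n) ε hε
      choose z hz hz' using hr
      exact ⟨r, z, hz, hz'⟩
    refine glueR one_nonneg' one_nonneg' hI hL isClosedIdeal_bot (fun z hz hz' => ?_) hφ hk
      (diag_of_eltPI B (eltPI_of B hB)) hδ (hrow L hL hL0 _ (by positivity))
      (hrow I hI hI0 _ (by positivity))
    rw [← hIL]
    exact ⟨hz, hz'⟩
  · by_contra hcon
    push Not at hcon
    exact h.ne (infB_of_pi ((pi_iff_essential h.wpi).2 fun E hE hE' => hcon E ⟨hE, hE'⟩)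
      one_nonneg')

end

/-- Question (b) holds if and only if there are no critical algebras. -/
theorem b_iff_no_critical :
    (∀ (A : Type u) [NonUnitalCStarAlgebra A] [PartialOrder A] [StarOrderedRing A],
      WeaklyPurelyInfinite A → PurelyInfinite A) ↔
    ¬ ∃ (D : Type u) (_ : CStarAlgebra D) (_ : PartialOrder D) (_ : StarOrderedRing D),
      IsCritical D := by
  constructor
  · rintro H ⟨D, i1, i2, i3, hD⟩
    exact not_crit_of_isometry hD (infB_of_pi (H D hD.wpi) one_nonneg')
  · intro H
    rw [finite_iff]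
    intro A _ _ _ _ hW
    by_contra hcon
    have h1 : ¬ InfB (1 : A) 1 := fun h => hcon (exists_isometry h)
    obtain ⟨B, i1, i2, i3, φ, hφ, hB⟩ := exists_crit hW h1
    exact H ⟨B, i1, i2, i3, hB.isCritical⟩

section

variable {A : Type u} [CStarAlgebra A] [PartialOrder A] [StarOrderedRing A]

omit [PartialOrder A] [StarOrderedRing A] in
theorem pow_iso {s t : A} (ht : star t * t = 1) (hst : star s * t = 0) (hs : star s * s = 1) :
    ∀ i j : ℕ, star (t ^ i * s) * (t ^ j * s) = if i = j then 1 else 0 := by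
  have h0 : star t * s = 0 := by
    have h := congrArg star hst
    rwa [star_mul, star_star, star_zero] at h
  have hti : ∀ i : ℕ, star (t ^ i) * t ^ i = 1 := by
    intro i
    induction i with
    | zero => simp
    | succ i ih =>
      calc star (t ^ (i + 1)) * t ^ (i + 1) = star (t ^ i) * (star t * t) * t ^ i := by
            rw [_root_.pow_succ' t i, star_mul]; simp only [mul_assoc]
        _ = 1 := by rw [ht, mul_one, ih]
  intro i j
  rcases lt_trichotomy i j with h | rfl | h
  · obtain ⟨k, rfl⟩ := Nat.exists_eq_add_of_lt h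
    rw [if_neg (by omega)]
    calc star (t ^ i * s) * (t ^ (i + k + 1) * s) =
          star s * (star (t ^ i) * t ^ i) * t ^ (k + 1) * s := by
          rw [star_mul, add_assoc, pow_add]; simp only [mul_assoc]
      _ = (star s * t) * t ^ k * s := by
          rw [hti, mul_one, _root_.pow_succ']; simp only [mul_assoc]
      _ = 0 := by rw [hst]; simp
  · rw [if_pos rfl]
    calc star (t ^ i * s) * (t ^ i * s) = star s * (star (t ^ i) * t ^ i) * s := by
          rw [star_mul]; simp only [mul_assoc]
      _ = 1 := by rw [hti, mul_one, hs]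
  · obtain ⟨k, rfl⟩ := Nat.exists_eq_add_of_lt h
    rw [if_neg (by omega)]
    calc star (t ^ (j + k + 1) * s) * (t ^ j * s) =
          star s * star (t ^ k) * (star t * ((star (t ^ j) * t ^ j) * s)) := by
          have e : t ^ (j + k + 1) = t ^ j * (t * t ^ k) := by
            rw [← _root_.pow_succ', ← pow_add, add_assoc]
          rw [e]; simp only [star_mul, mul_assoc]
      _ = 0 := by rw [hti, one_mul, h0, mul_zero]

/-- two isometries with orthogonal ranges make the unit properly infinite -/
theorem infB_of_isometries {s t : A} (hs : star s * s = 1) (ht : star t * t = 1)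
    (hst : star s * t = 0) : InfB (1 : A) 1 := by
  refine ⟨one_nonneg', fun m ε hε => ⟨fun i => t ^ (i : ℕ) * s, fun i j => ?_⟩⟩
  rw [mul_one, pow_iso ht hst hs]
  by_cases h : i = j
  · rw [if_pos h, if_pos (by rw [h]), sub_self, norm_zero]; exact hε
  · rw [if_neg h, if_neg (fun h' => h (Fin.ext h')), sub_self, norm_zero]; exact hε

omit [PartialOrder A] [StarOrderedRing A] in
theorem isMaxC_iff {M : Submodule ℂ A} : IsMaxC M ↔ IsMaxIdeal M := Iff.rfl

/-- the unit is properly infinite if it is so modulo an ideal contained in all maximal ones -/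
theorem isometries_iff_rad (hW : WeaklyPurelyInfinite A) {B : Type u} [CStarAlgebra B]
    (φ : A →⋆ₐ[ℂ] B) (hφ : Function.Surjective φ)
    (hr : ∀ x, φ x = 0 → ∀ M : Submodule ℂ A, IsMaxC M → x ∈ M) :
    TwoIsometries A ↔ TwoIsometries B := by
  constructor
  · rintro ⟨s, t, h1, h2, h3⟩
    refine ⟨φ s, φ t, ?_, ?_, ?_⟩
    · rw [← map_star, ← map_mul, h1, map_one]
    · rw [← map_star, ← map_mul, h2, map_one]
    · rw [← map_star, ← map_mul, h3, map_zero]
  · rintro ⟨s, t, h1, h2, h3⟩
    let i1 : PartialOrder B := CStarAlgebra.spectralOrder B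
    have i2 : StarOrderedRing B := CStarAlgebra.spectralOrderedRing B
    obtain ⟨n, hn⟩ := wpi_elementwise hW
    let φ' : A →⋆ₙₐ[ℂ] B := φ
    let J : Submodule ℂ A := LinearMap.ker (φ : A →ₗ[ℂ] B)
    have hm : ∀ x, x ∈ J ↔ φ x = 0 := fun x => LinearMap.mem_ker
    have hB : InfB (φ' 1) (φ' 1) := by
      have h4 : φ' 1 = 1 := map_one φ
      rw [h4]
      exact infB_of_isometries h1 h2 h3
    have hJ : PIMod J (1 : A) := piMod_of_infB (φ := φ') hφ (fun x => (hm x).symm) hB
    have hA : InfB (1 : A) 1 :=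
      infB_one_of_rad hn (fun M hM x hx => hr x ((hm x).1 hx) M hM) hJ
    by_cases hnt : Nontrivial A
    · exact exists_isometries hA
    · rw [not_nontrivial_iff_subsingleton] at hnt
      exact ⟨0, 0, Subsingleton.elim _ _, Subsingleton.elim _ _, Subsingleton.elim _ _⟩

end

section

variable {A : Type u} [NonUnitalCStarAlgebra A] [PartialOrder A] [StarOrderedRing A]

/-- proper infiniteness of an element modulo a superfluous ideal -/
theorem allBelow_iff_superfluous (hW : WeaklyPurelyInfinite A) {a : A} (ha : 0 ≤ a)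
    {B : Type u} [NonUnitalCStarAlgebra B] [PartialOrder B] [StarOrderedRing B]
    (φ : A →⋆ₙₐ[ℂ] B) (hφ : Function.Surjective φ)
    (hS : Superfluous φ a) :
    AllBelow a a ↔ AllBelow (φ a) (φ a) := by
  obtain ⟨n, hn⟩ := wpi_elementwise hW
  let J : Submodule ℂ A := LinearMap.ker (φ : A →ₗ[ℂ] B)
  have hm : ∀ x, x ∈ J ↔ φ x = 0 := fun x => LinearMap.mem_ker
  constructor
  · intro h
    exact allBelow_of_infB (H779.infB_map φ (infB_of_allBelow ha h))
  · intro h
    have h1 : InfB (φ a) (φ a) := infB_of_allBelow (R2.H28.map_nonneg' φ ha) h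
    have hJ : PIMod J a := piMod_of_infB hφ (fun x => (hm x).symm) h1
    exact allBelow_of_infB (infB_of_mod hn ha (fun δ hδ I hI hP => hS δ hδ I hI
      fun P hP' hIP hJP => hP P hP' hIP fun x hx => hJP x ((hm x).2 hx)) hJ)

end

end Vale.Agent.P133.H216
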