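import Vale.Agent.P133.R2.H28.Unital

/-!
P133 (helper216): large orthogonal families modulo a closed ideal, from comparison modulo it.
-/

open scoped ComplexOrder

namespace Vale.Agent.P133.H216

open Vale.Agent.P133 Vale.Agent.P133.Statement Vale.Agent.P133.H832 Vale.Agent.P133F
  Vale.Agent.P133.H681 Vale.Agent.P133.R2.H28

universe u

/-- the bump around `t` -/
def bump (t : ℝ) : ℝ → ℝ := fun s => max 0 (1 - 4 * |s - t|)

theorem bump_cont (t : ℝ) : Continuous (bump t) := by unfold bump; fun_prop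

theorem bump_nonneg (t s : ℝ) : 0 ≤ bump t s := le_max_left _ _

theorem bump_eq_zero {t s : ℝ} (h : 1 / 4 ≤ |s - t|) : bump t s = 0 := by
  unfold bump
  exact max_eq_left (by linarith)

theorem of_bump_eq_zero {t s : ℝ} (h : bump t s = 0) : 1 / 4 ≤ |s - t| := by
  by_contra hc
  push Not at hc
  unfold bump at h
  have h1 : 1 - 4 * |s - t| ≤ 0 := by
    rw [← h]; exact le_max_right _ _
  linarith

section

variable {B : Type u} [NonUnitalCStarAlgebra B] [PartialOrder B] [StarOrderedRing B]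

/-- if the spectrum has a gap around `t`, then `D - t` is bounded below -/
theorem gap {D : B} (hD : IsSelfAdjoint D) {t : ℝ} (ht : 1 ≤ t)
    (h : cfcₙ (bump t) D = 0) (X : B) : ‖X‖ ≤ 4 * ‖D * X - t • X‖ := by
  have hs : ∀ s ∈ quasispectrum ℝ D, 1 / 4 ≤ |s - t| := by
    intro s hs
    have h0 : bump t 0 = 0 := bump_eq_zero (by
      rw [zero_sub, abs_neg, abs_of_nonneg (by linarith)]; linarith)
    have h1 := norm_apply_le_norm_cfcₙ (bump t) D hs
      (hf := (bump_cont t).continuousOn) (hf₀ := h0)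
    rw [h, norm_zero] at h1
    exact of_bump_eq_zero (norm_le_zero_iff.1 h1)
  set p : ℝ → ℝ := fun s => max 0 (s * s - 2 * t * s) with hp
  set m : ℝ → ℝ := fun s => max 0 (-(s * s - 2 * t * s)) with hm
  have hpc : Continuous p := by rw [hp]; fun_prop
  have hmc : Continuous m := by rw [hm]; fun_prop
  have hp0 : p 0 = 0 := by simp [hp]
  have hm0 : m 0 = 0 := by simp [hm]
  have hc : ‖cfcₙ m D‖ ≤ t ^ 2 - 1 / 16 := by
    refine norm_cfcₙ_le fun s hs' => ?_
    have h1 := hs s hs'
    have h2 : 1 / 16 ≤ (s - t) ^ 2 := by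
      rw [← sq_abs]; nlinarith
    rw [Real.norm_of_nonneg (le_max_left _ _)]
    refine max_le (by nlinarith) (by nlinarith)
  have hdec : cfcₙ p D - cfcₙ m D = D * D - (2 * t) • D := by
    have e1 : cfcₙ p D - cfcₙ m D = cfcₙ (fun s : ℝ => p s - m s) D :=
      (cfcₙ_sub p m D hpc.continuousOn hp0 hmc.continuousOn hm0).symm
    have e2 : (fun s : ℝ => p s - m s) = fun s : ℝ => s * s - (2 * t) • s := by
      funext s
      simp only [hp, hm, smul_eq_mul]
      rcases le_total 0 (s * s - 2 * t * s) with h1 | h1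
      · rw [max_eq_right h1, max_eq_left (by linarith)]; ring
      · rw [max_eq_left h1, max_eq_right (by linarith)]; ring
    rw [e1, e2, cfcₙ_sub (fun s : ℝ => s * s) (fun s : ℝ => (2 * t) • s) D
      (by fun_prop) (by simp) (by fun_prop) (by simp),
      cfcₙ_mul (fun s : ℝ => s) (fun s : ℝ => s) D (by fun_prop) rfl (by fun_prop) rfl,
      cfcₙ_smul (2 * t) (fun s : ℝ => s) D (by fun_prop) rfl, cfcₙ_id' ℝ D]
  have hD' : star D = D := hD.star_eq
  have hexp : star (D * X - t • X) * (D * X - t • X) =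
      star X * cfcₙ p D * X - star X * cfcₙ m D * X + (t ^ 2) • (star X * X) := by
    have e3 : star X * cfcₙ p D * X - star X * cfcₙ m D * X =
        star X * (D * D - (2 * t) • D) * X := by
      rw [← hdec, mul_sub, sub_mul]
    rw [e3, star_sub, star_mul, hD', star_smul, star_trivial t]
    have e4 : (2 * t) • D = t • D + t • D := by rw [← add_smul]; ring_nf
    have e5 : (t ^ 2) • (star X * X) = t • (t • (star X * X)) := by
      rw [smul_smul, sq]
    rw [e4, e5]
    simp only [mul_sub, sub_mul, mul_add, add_mul, smul_mul_assoc, mul_smul_comm, mul_assoc,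
      smul_sub]
    abel
  have hp1 : 0 ≤ star X * cfcₙ p D * X :=
    star_left_conjugate_nonneg (cfcₙ_nonneg fun s _ => le_max_left _ _) X
  have hm1 : star X * cfcₙ m D * X ≤ (t ^ 2 - 1 / 16) • (star X * X) := by
    have h1 := CStarAlgebra.star_left_conjugate_le_norm_smul (a := X) (b := cfcₙ m D)
      (cfcₙ_predicate (p := IsSelfAdjoint) m D)
    refine h1.trans ?_
    exact smul_le_smul_of_nonneg_right hc (star_mul_self_nonneg X)
  have hle : (1 / 16 : ℝ) • (star X * X) ≤ star (D * X - t • X) * (D * X - t • X) := by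
    rw [hexp]
    have h2 : (1 / 16 : ℝ) • (star X * X) = (t ^ 2) • (star X * X) -
        (t ^ 2 - 1 / 16) • (star X * X) := by
      rw [← sub_smul]; ring_nf
    rw [h2]
    have h3 : (t ^ 2) • (star X * X) - (t ^ 2 - 1 / 16) • (star X * X) ≤
        (t ^ 2) • (star X * X) - star X * cfcₙ m D * X := sub_le_sub_left hm1 _
    refine h3.trans ?_
    have h4 : star X * cfcₙ p D * X - star X * cfcₙ m D * X + (t ^ 2) • (star X * X) =
        star X * cfcₙ p D * X + ((t ^ 2) • (star X * X) - star X * cfcₙ m D * X) := by abel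
    rw [h4]
    exact le_add_of_nonneg_left hp1
  have hn := CStarAlgebra.norm_le_norm_of_nonneg_of_le (smul_nonneg (by norm_num)
    (star_mul_self_nonneg X)) hle
  rw [norm_smul, CStarRing.norm_star_mul_self, CStarRing.norm_star_mul_self,
    Real.norm_of_nonneg (by norm_num)] at hn
  have h0 := norm_nonneg X
  have h1 := norm_nonneg (D * X - t • X)
  by_contra hcon
  push Not at hcon
  nlinarith

omit [PartialOrder B] [StarOrderedRing B] in
/-- the functional calculus of `d` by a function vanishing near zero is in the hereditary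
subalgebra of `d` -/
theorem cfcn_mem_her {d : B} (hd : IsSelfAdjoint d) {f : ℝ → ℝ} (hf : Continuous f)
    (h0 : ∀ s, |s| < 1 / 2 → f s = 0) :
    cfcₙ f d ∈ closure (Set.range fun w => d * w * d) := by
  refine subset_closure ⟨cfcₙ (fun s => f s / (max (1 / 4) (s ^ 2))) d, ?_⟩
  have hpos : ∀ s : ℝ, max (1 / 4) (s ^ 2) ≠ 0 := fun s =>
    (lt_of_lt_of_le (by norm_num) (le_max_left _ _)).ne'
  have hc : Continuous fun s : ℝ => f s / (max (1 / 4) (s ^ 2)) :=
    hf.div (by fun_prop) hpos
  have hf00 : f 0 = 0 := h0 0 (by norm_num)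
  have hc0 : (fun s : ℝ => f s / (max (1 / 4) (s ^ 2))) 0 = 0 := by simp [hf00]
  have e1 : d * cfcₙ (fun s => f s / (max (1 / 4) (s ^ 2))) d * d =
      cfcₙ (fun s => s * (f s / (max (1 / 4) (s ^ 2))) * s) d := by
    rw [cfcₙ_mul (fun s : ℝ => s * (f s / (max (1 / 4) (s ^ 2)))) (fun s : ℝ => s) d
      (continuous_id.mul hc).continuousOn (by simp) (by fun_prop) rfl,
      cfcₙ_mul (fun s : ℝ => s) (fun s : ℝ => f s / (max (1 / 4) (s ^ 2))) d
      (by fun_prop) rfl hc.continuousOn hc0, cfcₙ_id' ℝ d]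
  show d * cfcₙ (fun s => f s / (max (1 / 4) (s ^ 2))) d * d = cfcₙ f d
  rw [e1]
  congr 1
  funext s
  rcases lt_or_ge |s| (1 / 2) with h | h
  · rw [h0 s h]; simp
  · have h1 : 1 / 4 ≤ s ^ 2 := by rw [← sq_abs]; nlinarith [abs_nonneg s]
    have h2 : s ≠ 0 := by
      rintro rfl
      norm_num at h
    rw [max_eq_right h1]
    field_simp

/-- the function with `t * gg δ t ^ 2 = 1` for `t ≥ δ` -/
noncomputable def gg (δ : ℝ) : ℝ → ℝ := fun t => √(max t 0) / max t δ

theorem gg_cont {δ : ℝ} (hδ : 0 < δ) : Continuous (gg δ) := by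
  unfold gg
  refine Continuous.div (by fun_prop) (by fun_prop) fun t => ?_
  exact (lt_of_lt_of_le hδ (le_max_right _ _)).ne'

theorem gg_zero (δ : ℝ) : gg δ 0 = 0 := by simp [gg]

theorem gg_nonneg {δ : ℝ} (hδ : 0 < δ) (t : ℝ) : 0 ≤ gg δ t := by
  unfold gg
  exact div_nonneg (Real.sqrt_nonneg _) (hδ.le.trans (le_max_right _ _))

theorem gg_sq_le {δ : ℝ} (hδ : 0 < δ) (t : ℝ) : gg δ t * gg δ t ≤ δ⁻¹ := by
  unfold gg
  have h1 : 0 < max t δ := lt_of_lt_of_le hδ (le_max_right _ _)
  rw [div_mul_div_comm, Real.mul_self_sqrt (le_max_right _ _), div_le_iff₀ (by positivity)]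
  have h2 : max t 0 ≤ max t δ := max_le_max le_rfl hδ.le
  have h3 : δ ≤ max t δ := le_max_right _ _
  have h4 : 1 ≤ δ⁻¹ * max t δ := by
    rw [← div_eq_inv_mul, one_le_div hδ]; exact h3
  calc max t 0 ≤ max t δ := h2
    _ = 1 * max t δ := (one_mul _).symm
    _ ≤ δ⁻¹ * max t δ * max t δ := by gcongr
    _ = _ := by ring

theorem gg_mul {δ : ℝ} (hδ : 0 < δ) {t : ℝ} (ht : δ ≤ t) : gg δ t * t * gg δ t = 1 := by
  unfold gg
  have h1 : max t δ = t := max_eq_left ht
  have h2 : max t 0 = t := max_eq_left (hδ.le.trans ht)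
  have h3 : √t * √t = t := Real.mul_self_sqrt (hδ.le.trans ht)
  have h4 : t ≠ 0 := by linarith
  rw [h1, h2]
  calc √t / t * t * (√t / t) = (√t * √t) / t := by field_simp
    _ = 1 := by rw [h3]; field_simp

theorem gg_le {δ : ℝ} (hδ : 0 < δ) {t : ℝ} (ht : 0 ≤ t) : gg δ t * t * gg δ t ≤ 1 := by
  rcases le_total δ t with h | h
  · exact (gg_mul hδ h).le
  · unfold gg
    rw [max_eq_right h, max_eq_left ht]
    have h3 : √t * √t = t := Real.mul_self_sqrt ht
    have h4 : √t / δ * t * (√t / δ) = (√t * √t) * t / (δ * δ) := by ring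
    rw [h4, h3, div_le_one (by positivity)]
    nlinarith

/-- Orthogonal families from comparison modulo a closed ideal: if the `N`-fold multiple of `a` is
below `a` modulo `J`, up to a small error, then the hereditary subalgebra of `a` contains `N`
orthogonal positive elements, each of which generates together with `J` an ideal with `(a - δ)₊`
in it. -/
theorem orth_family {a : B} (ha : 0 ≤ a) {δ : ℝ} (hδ : 0 < δ) (N : ℕ) {z : Fin N → B}
    {J : Submodule ℂ B} (hz : ∀ i j, ∃ k ∈ J,
      ‖star (z i) * a * z j - (if i = j then a else 0) - k‖ ≤ δ / (32 * ((N : ℝ) ^ 2 + 1))) :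
    ∃ x : Fin N → B, (∀ i, 0 ≤ x i) ∧ (∀ i j, i ≠ j → x i * x j = 0) ∧
      (∀ i, x i ∈ closure (Set.range fun w => a * w * a)) ∧
      ∀ i, ∀ P : Submodule ℂ B, IsClosedIdeal P → J ≤ P → x i ∈ P →
        R2.H28.cut a δ ∈ P := by
  set η : ℝ := δ / (32 * ((N : ℝ) ^ 2 + 1)) with hη
  have hη0 : 0 ≤ η := by positivity
  have hηδ : η * (32 * ((N : ℝ) ^ 2 + 1)) = δ := by rw [hη]; field_simp
  have has : IsSelfAdjoint a := IsSelfAdjoint.of_nonneg ha
  set q : B := CFC.sqrt a with hq
  have hqs : star q = q := (IsSelfAdjoint.of_nonneg (CFC.sqrt_nonneg a)).star_eq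
  have hqq : q * q = a := CFC.sqrt_mul_sqrt_self a ha
  set g : B := cfcₙ (gg δ) a with hg
  have hgs : star g = g := (cfcₙ_predicate (p := IsSelfAdjoint) (gg δ) a).star_eq
  set y : Fin N → B := fun i => q * z i * g with hy
  set d : B := ∑ i : Fin N, ((i : ℕ) + 1 : ℝ) • (y i * star (y i)) with hd
  have hdsa : IsSelfAdjoint d := by
    refine isSelfAdjoint_sum _ fun i _ => ?_
    exact IsSelfAdjoint.smul (.all _) (IsSelfAdjoint.mul_star_self _)
  have hdher : d ∈ closure (Set.range fun w => a * w * a) := by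
    have h1 : d = CFC.sqrt a * (∑ i : Fin N, ((i : ℕ) + 1 : ℝ) • (z i * g * star (z i * g))) *
        CFC.sqrt a := by
      rw [hd, Finset.mul_sum, Finset.sum_mul]
      refine Finset.sum_congr rfl fun i _ => ?_
      rw [← hq, mul_smul_comm, smul_mul_assoc, hy]
      congr 1
      rw [star_mul, star_mul, star_mul, hqs]
      simp only [mul_assoc]
    rw [h1]
    exact sqrt_conj_her ha _
  have hbz : ∀ (i : Fin N) (s : ℝ), |s| < 1 / 2 → bump ((i : ℕ) + 1 : ℝ) s = 0 := by
    intro i s hs
    refine bump_eq_zero ?_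
    have h1 := (abs_lt.1 hs).2
    have h2 : (0 : ℝ) ≤ (i : ℕ) := Nat.cast_nonneg _
    rw [abs_sub_comm, abs_of_nonneg (by linarith)]
    linarith
  have hb0 : ∀ i : Fin N, bump ((i : ℕ) + 1 : ℝ) 0 = 0 := fun i => hbz i 0 (by norm_num)
  refine ⟨fun i => cfcₙ (bump ((i : ℕ) + 1 : ℝ)) d, fun i => cfcₙ_nonneg fun s _ => bump_nonneg _ _,
    fun i j hij => ?_, fun i => her_trans (cfcn_mem_her hdsa (bump_cont _) (hbz i)) hdher,
    fun i P hP hJP hxP => ?_⟩
  · have e1 : cfcₙ (bump ((i : ℕ) + 1 : ℝ)) d * cfcₙ (bump ((j : ℕ) + 1 : ℝ)) d =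
        cfcₙ (fun s => bump ((i : ℕ) + 1 : ℝ) s * bump ((j : ℕ) + 1 : ℝ) s) d := by
      rw [cfcₙ_mul _ _ d (bump_cont _).continuousOn (hb0 i) (bump_cont _).continuousOn (hb0 j)]
    have e2 : (fun s => bump ((i : ℕ) + 1 : ℝ) s * bump ((j : ℕ) + 1 : ℝ) s) =
        fun _ => (0 : ℝ) := by
      funext s
      rcases le_or_gt (1 / 4) |s - ((i : ℕ) + 1 : ℝ)| with h | h
      · rw [bump_eq_zero h, zero_mul]
      · rw [bump_eq_zero (t := ((j : ℕ) + 1 : ℝ)), mul_zero]
        have h1 : (1 : ℝ) ≤ |((i : ℕ) : ℝ) - ((j : ℕ) : ℝ)| := by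
          have h2 : ((i : ℕ) : ℤ) - ((j : ℕ) : ℤ) ≠ 0 := fun h3 => hij (Fin.ext (by omega))
          have h3 := Int.one_le_abs h2
          exact_mod_cast h3
        have h2 : |((i : ℕ) : ℝ) - ((j : ℕ) : ℝ)| ≤
            |s - ((i : ℕ) + 1 : ℝ)| + |s - ((j : ℕ) + 1 : ℝ)| := by
          have h3 : ((i : ℕ) : ℝ) - ((j : ℕ) : ℝ) =
              (s - ((j : ℕ) + 1 : ℝ)) - (s - ((i : ℕ) + 1 : ℝ)) := by ring
          rw [h3]
          refine (abs_sub _ _).trans ?_
          linarith
        linarith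
    rw [e1, e2]
    exact cfcₙ_const_zero ℝ d
  · -- in the quotient
    obtain ⟨C, i1, i2, i3, φ, hφ, hk⟩ := hP.quot
    set t : ℝ := ((i : ℕ) + 1 : ℝ) with ht
    have ht1 : 1 ≤ t := by
      have : (0 : ℝ) ≤ (i : ℕ) := Nat.cast_nonneg _
      linarith
    have hφd : IsSelfAdjoint (φ d) := hdsa.map φ
    have hz1 : cfcₙ (bump t) (φ d) = 0 := by
      have h1 : φ (cfcₙ (bump t) d) = cfcₙ (bump t) (φ d) :=
        NonUnitalStarAlgHomClass.map_cfcₙ φ _ d (hf := (bump_cont t).continuousOn)
          (hf₀ := hb0 i) (hφ := map_continuous φ) (ha := hdsa) (hφa := hφd)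
      rw [← h1, (hk _).2 hxP]
    have hgap := gap hφd ht1 hz1
    set c : B := R2.H28.cut a δ with hc
    have hcc : Continuous fun s : ℝ => max (s - δ) 0 := by fun_prop
    have hc0 : (fun s : ℝ => max (s - δ) 0) 0 = 0 := by
      simp only [zero_sub]; exact max_eq_right (by linarith)
    -- `g a g c = c`
    have hga : g * a * g = cfcₙ (fun s => gg δ s * s * gg δ s) a := by
      rw [cfcₙ_mul (fun s => gg δ s * s) (gg δ) a ((gg_cont hδ).mul continuous_id).continuousOn
        (by simp) (gg_cont hδ).continuousOn (gg_zero δ),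
        cfcₙ_mul (gg δ) (fun s : ℝ => s) a (gg_cont hδ).continuousOn (gg_zero δ)
        (by fun_prop) rfl, cfcₙ_id' ℝ a]
    have hcont : Continuous fun s => gg δ s * s * gg δ s :=
      ((gg_cont hδ).mul continuous_id).mul (gg_cont hδ)
    have hgac : g * a * g * c = c := by
      rw [hga, hc, R2.H28.cut, ← cfcₙ_mul (fun s => gg δ s * s * gg δ s) (fun s : ℝ => max (s - δ) 0) a
        hcont.continuousOn (by simp [gg_zero]) hcc.continuousOn hc0]
      congr 1
      funext s
      rcases le_total s δ with h | h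
      · rw [max_eq_right (by linarith), mul_zero]
      · rw [gg_mul hδ h, one_mul]
    have hgn : ‖g * a * g‖ ≤ 1 := by
      rw [hga]
      refine norm_cfcₙ_le fun s hs => ?_
      have hs0 : 0 ≤ s := quasispectrum_nonneg_of_nonneg a ha s hs
      have h1 : 0 ≤ gg δ s * s * gg δ s :=
        mul_nonneg (mul_nonneg (gg_nonneg hδ s) hs0) (gg_nonneg hδ s)
      rw [Real.norm_of_nonneg h1]
      exact gg_le hδ hs0
    have hgg : ‖g‖ * ‖g‖ ≤ δ⁻¹ := by
      have h1 : ‖g * g‖ = ‖g‖ * ‖g‖ := by
        have := CStarRing.norm_star_mul_self (x := g)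
        rwa [hgs] at this
      rw [← h1]
      have h2 : g * g = cfcₙ (fun s => gg δ s * gg δ s) a := by
        rw [cfcₙ_mul (gg δ) (gg δ) a (gg_cont hδ).continuousOn (gg_zero δ)
          (gg_cont hδ).continuousOn (gg_zero δ)]
      rw [h2]
      refine norm_cfcₙ_le fun s _ => ?_
      rw [Real.norm_of_nonneg (mul_self_nonneg _)]
      exact gg_sq_le hδ s
    set η' : ℝ := η * δ⁻¹ with hη'
    have hη'0 : 0 ≤ η' := by positivity
    have hη'' : η' * (32 * ((N : ℝ) ^ 2 + 1)) = 1 := by
      rw [hη', mul_assoc, mul_comm δ⁻¹, ← mul_assoc, hηδ]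
      exact mul_inv_cancel₀ hδ.ne'
    have hη's : η' ≤ 1 / 32 := by nlinarith [sq_nonneg (N : ℝ)]
    -- Gram matrix
    have hgram : ∀ j l, ‖φ (star (y j) * y l) - (if j = l then φ (g * a * g) else 0)‖ ≤ η' := by
      intro j l
      obtain ⟨k, hkJ, hkn⟩ := hz j l
      have h1 : φ (star (y j) * y l) - (if j = l then φ (g * a * g) else 0) =
          φ (g * (star (z j) * a * z l - (if j = l then a else 0) - k) * g) := by
        have h2 : φ (g * k * g) = 0 := (hk _).2 (hP.2 _ _ (hP.2 _ _ (hJP hkJ)).1).2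
        have h3 : star (y j) * y l = g * (star (z j) * a * z l) * g := by
          rw [hy]
          simp only [star_mul, hgs, hqs]
          rw [← hqq]
          simp only [mul_assoc]
        have h4 : g * (star (z j) * a * z l - (if j = l then a else 0) - k) * g =
            g * (star (z j) * a * z l) * g - (if j = l then g * a * g else 0) - g * k * g := by
          split_ifs
          · noncomm_ring
          · noncomm_ring
        rw [h4, map_sub, map_sub, h2, sub_zero, ← h3]
        split_ifs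
        · rfl
        · rw [map_zero]
      rw [h1]
      refine (NonUnitalStarAlgHom.norm_apply_le φ _).trans ?_
      calc _ ≤ ‖g‖ * η * ‖g‖ := by
            refine (norm_mul_le _ _).trans ?_
            gcongr
            refine (norm_mul_le _ _).trans ?_
            gcongr
        _ = (‖g‖ * ‖g‖) * η := by ring
        _ ≤ δ⁻¹ * η := by gcongr
        _ = η' := by rw [hη']; ring
    have hGn : ‖φ (g * a * g)‖ ≤ 1 := (NonUnitalStarAlgHom.norm_apply_le φ _).trans hgn
    have hyn : ∀ j, ‖φ (y j)‖ ≤ 2 := by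
      intro j
      have h1 := hgram j j
      rw [if_pos rfl] at h1
      have h2 : ‖φ (star (y j) * y j)‖ ≤ 1 + 1 / 32 := by
        have h3 : φ (star (y j) * y j) = φ (g * a * g) +
            (φ (star (y j) * y j) - φ (g * a * g)) := by abel
        rw [h3]
        exact (norm_add_le _ _).trans (add_le_add hGn (h1.trans hη's))
      rw [map_mul, map_star, CStarRing.norm_star_mul_self] at h2
      by_contra hcon
      push Not at hcon
      nlinarith
    set W : C := φ c with hW
    have hGW : φ (g * a * g) * W = W := by rw [hW, ← map_mul, hgac]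
    -- the approximate eigenvector
    have heig : ‖φ d * (φ (y i) * W) - t • (φ (y i) * W)‖ ≤ 2 * (N : ℝ) ^ 2 * η' * ‖W‖ := by
      have h1 : φ d * (φ (y i) * W) - t • (φ (y i) * W) = ∑ j : Fin N, ((j : ℕ) + 1 : ℝ) •
          (φ (y j) * ((φ (star (y j) * y i) - (if j = i then φ (g * a * g) else 0)) * W)) := by
        have h2 : ∀ j : Fin N, ((j : ℕ) + 1 : ℝ) •
            (φ (y j) * ((φ (star (y j) * y i) - (if j = i then φ (g * a * g) else 0)) * W)) =
            ((j : ℕ) + 1 : ℝ) • (φ (y j * star (y j)) * (φ (y i) * W)) -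
              (if j = i then ((j : ℕ) + 1 : ℝ) • (φ (y j) * W) else 0) := by
          intro j
          rw [sub_mul, mul_sub, smul_sub]
          congr 1
          · congr 1
            rw [map_mul φ (star (y j)) (y i), map_mul φ (y j) (star (y j))]
            simp only [mul_assoc]
          · split_ifs with h3
            · rw [hGW]
            · rw [zero_mul, mul_zero, smul_zero]
        rw [Finset.sum_congr rfl fun j _ => h2 j, Finset.sum_sub_distrib, Finset.sum_ite_eq']
        simp only [Finset.mem_univ, if_true]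
        congr 1
        rw [hd, map_sum, Finset.sum_mul]
        refine Finset.sum_congr rfl fun j _ => ?_
        have h4 : φ (((j : ℕ) + 1 : ℝ) • (y j * star (y j))) =
            ((j : ℕ) + 1 : ℝ) • φ (y j * star (y j)) := by
          rw [← Complex.coe_smul, map_smul, Complex.coe_smul]
        rw [h4, smul_mul_assoc]
      rw [h1]
      have h5 : ∀ j ∈ (Finset.univ : Finset (Fin N)), ‖((j : ℕ) + 1 : ℝ) •
          (φ (y j) * ((φ (star (y j) * y i) - (if j = i then φ (g * a * g) else 0)) * W))‖ ≤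
          (N : ℝ) * (2 * (η' * ‖W‖)) := by
        intro j _
        rw [norm_smul, Real.norm_of_nonneg (by positivity)]
        have h6 : ((j : ℕ) + 1 : ℝ) ≤ N := by exact_mod_cast j.2
        have h7 : ‖φ (y j) * ((φ (star (y j) * y i) -
            (if j = i then φ (g * a * g) else 0)) * W)‖ ≤ 2 * (η' * ‖W‖) := by
          refine (norm_mul_le _ _).trans ?_
          refine mul_le_mul (hyn j) ?_ (norm_nonneg _) (by norm_num)
          exact (norm_mul_le _ _).trans (mul_le_mul_of_nonneg_right (hgram j i) (norm_nonneg _))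
        exact mul_le_mul h6 h7 (norm_nonneg _) (Nat.cast_nonneg _)
      refine (norm_sum_le_of_le _ h5).trans (le_of_eq ?_)
      rw [Finset.sum_const, Finset.card_univ, Fintype.card_fin, nsmul_eq_mul]
      ring
    -- lower bound
    have hlow : (1 - η') * (‖W‖ * ‖W‖) ≤ ‖φ (y i) * W‖ * ‖φ (y i) * W‖ := by
      have h1 := hgram i i
      rw [if_pos rfl] at h1
      have h2 : star (φ (y i) * W) * (φ (y i) * W) =
          star W * W + star W * (φ (star (y i) * y i) - φ (g * a * g)) * W := by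
        have h3 : star W * φ (g * a * g) * W = star W * W := by rw [mul_assoc, hGW]
        have h3' : φ (star (y i) * y i) = star (φ (y i)) * φ (y i) := by
          rw [map_mul φ (star (y i)) (y i), map_star φ (y i)]
        rw [mul_sub, sub_mul, h3, star_mul, h3']
        simp only [mul_assoc]
        abel
      have h4 : ‖star W * W‖ - ‖star W * (φ (star (y i) * y i) - φ (g * a * g)) * W‖ ≤
          ‖star (φ (y i) * W) * (φ (y i) * W)‖ := by
        rw [h2]
        have := norm_sub_norm_le (star W * W)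
          (-(star W * (φ (star (y i) * y i) - φ (g * a * g)) * W))
        rwa [norm_neg, sub_neg_eq_add] at this
      rw [CStarRing.norm_star_mul_self, CStarRing.norm_star_mul_self] at h4
      have h5 : ‖star W * (φ (star (y i) * y i) - φ (g * a * g)) * W‖ ≤
          ‖W‖ * η' * ‖W‖ := by
        refine (norm_mul_le _ _).trans ?_
        refine mul_le_mul_of_nonneg_right ?_ (norm_nonneg _)
        refine (norm_mul_le _ _).trans ?_
        rw [norm_star]
        exact mul_le_mul_of_nonneg_left h1 (norm_nonneg _)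
      nlinarith
    rw [← hk, ← hW, ← norm_le_zero_iff]
    have h8 := hgap (φ (y i) * W)
    have h9 : ‖φ (y i) * W‖ ≤ 8 * (N : ℝ) ^ 2 * η' * ‖W‖ := by
      refine h8.trans ?_
      linarith [heig]
    have h10 : 8 * (N : ℝ) ^ 2 * η' ≤ 1 / 4 := by
      have : (N : ℝ) ^ 2 * η' ≤ 1 / 32 := by nlinarith
      linarith
    have h11 : ‖φ (y i) * W‖ ≤ 1 / 4 * ‖W‖ :=
      h9.trans (mul_le_mul_of_nonneg_right h10 (norm_nonneg _))
    by_contra hcon
    push Not at hcon
    have h12 : ‖φ (y i) * W‖ * ‖φ (y i) * W‖ ≤ (1 / 4 * ‖W‖) * (1 / 4 * ‖W‖) :=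
      mul_le_mul h11 h11 (norm_nonneg _) (by positivity)
    have h13 : 0 < ‖W‖ * ‖W‖ := mul_pos hcon hcon
    nlinarith

end

end Vale.Agent.P133.H216
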