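import Vale.Agent.P133.H216.Orth
import Vale.Agent.P133.R2.H645.Max
import Vale.Agent.P133.H681.Chain2
import Vale.Agent.P133.H832.Glu2
import Vale.Agent.P133.R2.H28.Ev

/-!
P133 (helper216): comparison modulo a superfluous closed ideal.
-/

open scoped ComplexOrder

namespace Vale.Agent.P133.H216

open Vale.Agent.P133 Vale.Agent.P133.Statement Vale.Agent.P133.H832 Vale.Agent.P133F
  Vale.Agent.P133.H681 Vale.Agent.P133.R2.H28 Vale.Agent.P133.R2.H28.H645

universe u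

/-- all multiples of `a` are below `a` modulo `J` -/
def PIMod {A : Type u} [NonUnitalCStarAlgebra A] (J : Submodule ℂ A) (a : A) : Prop :=
  ∀ (m : ℕ) (ε : ℝ), 0 < ε → ∃ r : Fin m → A, ∀ i j, ∃ k ∈ J,
    ‖star (r i) * a * r j - (if i = j then a else 0) - k‖ < ε

section

variable {A : Type u} [NonUnitalCStarAlgebra A] [PartialOrder A] [StarOrderedRing A]
  {B : Type u} [NonUnitalCStarAlgebra B] [PartialOrder B] [StarOrderedRing B]

omit [PartialOrder A] [StarOrderedRing A] in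
theorem PIMod.mono {J J' : Submodule ℂ A} (h : J ≤ J') {a : A} (hJ : PIMod J a) :
    PIMod J' a := by
  intro m ε hε
  obtain ⟨r, hr⟩ := hJ m ε hε
  refine ⟨r, fun i j => ?_⟩
  obtain ⟨k, hk, h1⟩ := hr i j
  exact ⟨k, h hk, h1⟩

omit [PartialOrder A] [StarOrderedRing A] in
theorem piMod_of_infB {φ : A →⋆ₙₐ[ℂ] B} (hφ : Function.Surjective φ) {J : Submodule ℂ A}
    (hk : ∀ x, φ x = 0 ↔ x ∈ J) {a : A} (h : InfB (φ a) (φ a)) : PIMod J a := by
  intro m ε hε
  obtain ⟨r', hr'⟩ := h.2 m (ε / 2) (half_pos hε)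
  choose r hr using fun i => hφ (r' i)
  refine ⟨r, fun i j => ?_⟩
  have h1 : ‖φ (star (r i) * a * r j - (if i = j then a else 0))‖ ≤ ε / 2 := by
    have h2 := (hr' i j).le
    rw [← hr i, ← hr j] at h2
    rw [map_sub, map_mul, map_mul, map_star]
    split_ifs with h3
    · rwa [if_pos h3] at h2
    · rwa [if_neg h3, ← map_zero φ] at h2
  obtain ⟨v, hv, h3⟩ := lift_small' φ (half_pos hε) h1
  exact ⟨v, (hk v).1 hv, by linarith⟩

theorem infB_of_piMod {φ : A →⋆ₙₐ[ℂ] B} {J : Submodule ℂ A}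
    (hk : ∀ x, φ x = 0 ↔ x ∈ J) {a : A} (ha : 0 ≤ a) (h : PIMod J a) : InfB (φ a) (φ a) := by
  refine ⟨Vale.Agent.P133.R2.H28.map_nonneg' φ ha, fun m ε hε => ?_⟩
  obtain ⟨r, hr⟩ := h m ε hε
  refine ⟨fun i => φ (r i), fun i j => ?_⟩
  obtain ⟨k, hkJ, h1⟩ := hr i j
  have h2 : star (φ (r i)) * φ a * φ (r j) - (if i = j then φ a else 0) =
      φ (star (r i) * a * r j - (if i = j then a else 0) - k) := by
    rw [map_sub, (hk k).2 hkJ, sub_zero, map_sub, map_mul, map_mul, map_star]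
    split_ifs
    · rfl
    · rw [map_zero]
  rw [h2]
  exact (NonUnitalStarAlgHom.norm_apply_le φ _).trans_lt h1

/-- Let `J` be superfluous for `a`: if `(a - δ)₊ ∈ I + J` then `(a - δ)₊ ∈ I`, for all closed
ideals `I`. If all multiples of `a` are below `a` modulo `J`, they are below `a`. -/
theorem infB_of_mod {n : ℕ} (hA : WPI A n) {a : A} (ha : 0 ≤ a) {J : Submodule ℂ A}
    (hS : ∀ δ : ℝ, 0 < δ → ∀ I : Submodule ℂ A, IsClosedIdeal I →
      (∀ P : Submodule ℂ A, IsClosedIdeal P → I ≤ P → J ≤ P → R2.H28.cut a δ ∈ P) →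
        R2.H28.cut a δ ∈ I) (h : PIMod J a) : InfB a a := by
  refine infB_lim ha fun η hη => ?_
  have hη2 : 0 < η / 2 := half_pos hη
  obtain ⟨z, hz⟩ := h (numS n) (η / 2 / (32 * (((numS n : ℕ) : ℝ) ^ 2 + 1))) (by positivity)
  obtain ⟨x, hx, ho, hxa, hxP⟩ := orth_family ha hη2 (numS n) (z := z) (J := J) (fun i j => by
    obtain ⟨k, hk, h1⟩ := hz i j
    exact ⟨k, hk, h1.le⟩)
  refine ⟨R2.H28.cut a (η / 2), ?_, (R2.H28.norm_cut_sub_le ha hη2).trans_lt (by linarith)⟩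
  refine infB_mono (Finset.sum_nonneg fun i _ => hx i) ha ?_
    (infB_sum hA le_rfl hx ho (R2.H28.cut_nonneg _ _) fun i => ?_)
  · exact RI.sum _ fun i _ => Her.mem_RI (hxa i)
  · obtain ⟨I, hI, hI'⟩ := isClosedIdeal_inId (x i)
    refine (hI' _).1 (hS _ hη2 I hI fun P hP hIP hJP => hxP i P hP hJP ?_)
    exact hIP ((hI' _).2 (InId.refl _))

end

section

variable {A : Type u} [CStarAlgebra A] [PartialOrder A] [StarOrderedRing A]

theorem one_nonneg' : (0 : A) ≤ 1 := by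
  have := star_mul_self_nonneg (1 : A)
  rwa [star_one, one_mul] at this

omit [PartialOrder A] [StarOrderedRing A] in
theorem one_mem_of_near {P : Submodule ℂ A} (hP : IsClosedIdeal P) {y : A} (hy : y ∈ P)
    (h : ‖1 - y‖ < 1) : (1 : A) ∈ P := by
  have hu : IsUnit y := by
    have h7 : IsUnit (1 - (1 - y)) := (Units.oneSub (1 - y) h).isUnit
    rwa [sub_sub_cancel] at h7
  obtain ⟨u, hu⟩ := hu
  have h8 := (hP.2 (↑u⁻¹ : A) y hy).1
  rwa [← hu, Units.inv_mul] at h8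

/-- `(1 - δ)₊` for `δ = 1 / 2` -/
theorem cut_one : R2.H28.cut (1 : A) (1 / 2) = (1 / 2 : ℂ) • (1 : A) := by
  have h5 : Continuous fun t : ℝ => max (t - 1 / 2) 0 := by fun_prop
  rw [R2.H28.cut, cfcₙ_eq_cfc (hf := h5.continuousOn)
    (hf0 := by norm_num), ← map_one (algebraMap ℝ A),
    cfc_algebraMap (1 : ℝ) (fun t : ℝ => max (t - 1 / 2) 0),
    Algebra.algebraMap_eq_smul_one]
  have h6 : max (1 - 1 / 2 : ℝ) 0 = 1 / 2 := by norm_num
  rw [h6, ← Complex.coe_smul]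
  simp

theorem one_mem_of_cut {P : Submodule ℂ A} (h : R2.H28.cut (1 : A) (1 / 2) ∈ P) :
    (1 : A) ∈ P := by
  rw [cut_one] at h
  have h1 := P.smul_mem 2 h
  rwa [smul_smul, show (2 : ℂ) * (1 / 2) = 1 by norm_num, one_smul] at h1

/-- `N` orthogonal elements that are full modulo `J` -/
def Fam (N : ℕ) (J : Submodule ℂ A) : Prop :=
  ∃ x : Fin N → A, (∀ i, 0 ≤ x i) ∧ (∀ i j, i ≠ j → x i * x j = 0) ∧
    ∀ i, ∀ P : Submodule ℂ A, IsClosedIdeal P → J ≤ P → x i ∈ P → (1 : A) ∈ P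

theorem fam_of_piMod {J : Submodule ℂ A} (h : PIMod J (1 : A)) (N : ℕ) : Fam N J := by
  have hd : (0 : ℝ) < 1 / 2 := by norm_num
  obtain ⟨z, hz⟩ := h N (1 / 2 / (32 * ((N : ℝ) ^ 2 + 1))) (by positivity)
  obtain ⟨x, hx, ho, -, hxP⟩ := orth_family (one_nonneg' (A := A)) hd N (z := z) (J := J)
    (fun i j => by
      obtain ⟨k, hk, h1⟩ := hz i j
      exact ⟨k, hk, h1.le⟩)
  exact ⟨x, hx, ho, fun i P hP hJP hxi => one_mem_of_cut (hxP i P hP hJP hxi)⟩

theorem piMod_of_fam {n : ℕ} (hA : WPI A n) {J : Submodule ℂ A} (hJ : IsClosedIdeal J)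
    (h : Fam (numS n) J) : PIMod J (1 : A) := by
  obtain ⟨x, hx, ho, hxP⟩ := h
  obtain ⟨B, i1, i2, i3, φ, hφ, hk⟩ := hJ.quot
  have hB : WPI B n := wpiE_of_surj hA φ hφ
  refine piMod_of_infB hφ hk ?_
  have h1 : 0 ≤ φ 1 := Vale.Agent.P133.R2.H28.map_nonneg' φ one_nonneg'
  refine infB_mono (x := ∑ i, φ (x i)) (Finset.sum_nonneg fun i _ => Vale.Agent.P133.R2.H28.map_nonneg' φ (hx i)) h1 ?_
    (infB_sum hB le_rfl (fun i => Vale.Agent.P133.R2.H28.map_nonneg' φ (hx i)) (fun i j hij => by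
      rw [← map_mul, ho i j hij, map_zero]) h1 fun i => ?_)
  · refine RI.sum _ fun i _ => ?_
    have h2 := RI.mul_self (φ 1) (φ (x i))
    rwa [← map_mul, one_mul] at h2
  · obtain ⟨I, hI, hI'⟩ := isClosedIdeal_inId (φ (x i))
    refine (hI' _).1 ?_
    -- the preimage of `I`
    let P : Submodule ℂ A := I.comap (φ : A →ₗ[ℂ] B)
    have hPm : ∀ y, y ∈ P ↔ φ y ∈ I := fun y => Iff.rfl
    have hP : IsClosedIdeal P := by
      refine ⟨?_, fun a y hy => ?_⟩
      · exact hI.1.preimage (map_continuous φ)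
      · rw [hPm] at hy
        refine ⟨?_, ?_⟩
        · rw [hPm, map_mul]; exact (hI.2 _ _ hy).1
        · rw [hPm, map_mul]; exact (hI.2 _ _ hy).2
    have h3 := hxP i P hP (fun y hy => by
      rw [hPm, (hk y).2 hy]; exact I.zero_mem) ((hPm _).2 ((hI' _).2 (InId.refl _)))
    exact (hPm 1).1 h3

theorem piMod_of_two {n : ℕ} (hA : WPI A n) {J : Submodule ℂ A} (hJ : IsClosedIdeal J)
    (h : Fam (numS n) J) (m : ℕ) : Fam m J := fam_of_piMod (piMod_of_fam hA hJ h) m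

/-- the unit is properly infinite if it is so modulo a closed ideal contained in all maximal
closed ideals -/
theorem infB_one_of_rad {n : ℕ} (hA : WPI A n) {J : Submodule ℂ A}
    (hJ : ∀ M : Submodule ℂ A, IsMaxIdeal M → J ≤ M) (h : PIMod J (1 : A)) :
    InfB (1 : A) 1 := by
  obtain ⟨x, hx, ho, hxP⟩ := fam_of_piMod h (numS n)
  refine unit_of_full hA le_rfl hx ho fun i => full_iff.2 fun M hM hxM => ?_
  exact (ideal_ne_top_iff hM.1).1 hM.2.1 (hxP i M hM.1 (hJ M hM) hxM)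

omit [PartialOrder A] [StarOrderedRing A] in
/-- Zorn's lemma for closed ideals -/
theorem exists_max_chain {Q : Submodule ℂ A → Prop} {J : Submodule ℂ A} (hJ : IsClosedIdeal J)
    (hQJ : Q J) (hQ : ∀ N : Submodule ℂ A, (∀ a x : A, x ∈ N → a * x ∈ N ∧ x * a ∈ N) →
      (∀ x ∈ N, ∃ P, IsClosedIdeal P ∧ Q P ∧ P ≤ N ∧ x ∈ P) → Q N.topologicalClosure) :
    ∃ P, J ≤ P ∧ IsClosedIdeal P ∧ Q P ∧ ∀ P', P ≤ P' → IsClosedIdeal P' → Q P' → P' = P := by
  obtain ⟨P, hP, hPm⟩ := zorn_le_nonempty₀ {P : Submodule ℂ A | IsClosedIdeal P ∧ Q P} (by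
    intro c hc hch y hy
    have h1 : ∀ x, x ∈ sSup c ↔ ∃ P ∈ c, x ∈ P := fun x =>
      Submodule.mem_sSup_of_directed ⟨y, hy⟩ hch.directedOn
    have h2 : ∀ a x : A, x ∈ sSup c → a * x ∈ sSup c ∧ x * a ∈ sSup c := by
      intro a x hx
      obtain ⟨P, hP, hx⟩ := (h1 x).1 hx
      exact ⟨(h1 _).2 ⟨P, hP, ((hc hP).1.2 a x hx).1⟩, (h1 _).2 ⟨P, hP, ((hc hP).1.2 a x hx).2⟩⟩
    refine ⟨(sSup c).topologicalClosure, ⟨isClosedIdeal_closure h2,
      hQ _ h2 fun x hx => ?_⟩, fun z hz => ?_⟩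
    · obtain ⟨P, hP, hx⟩ := (h1 x).1 hx
      exact ⟨P, (hc hP).1, (hc hP).2, le_sSup hP, hx⟩
    · exact (le_sSup hz).trans (Submodule.le_topologicalClosure _)) J ⟨hJ, hQJ⟩
  exact ⟨P, hP, hPm.prop.1, hPm.prop.2, fun P' h h' h'' =>
    le_antisymm (hPm.le_of_ge ⟨h', h''⟩ h) h⟩

/-- if the unit is not properly infinite, then there is a maximal closed ideal modulo which it
is not -/
theorem exists_critical {n : ℕ} (hA : WPI A n) (h : ¬ InfB (1 : A) 1) :
    ∃ J : Submodule ℂ A, IsClosedIdeal J ∧ ¬ PIMod J (1 : A) ∧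
      ∀ J' : Submodule ℂ A, IsClosedIdeal J' → J ≤ J' → J' ≠ J → PIMod J' (1 : A) := by
  have h0 : ¬ Fam (numS n) (⊥ : Submodule ℂ A) := by
    intro hF
    refine h ?_
    obtain ⟨x, hx, ho, hxP⟩ := hF
    refine unit_of_full hA le_rfl hx ho fun i => ?_
    obtain ⟨I, hI, hI'⟩ := isClosedIdeal_inId (x i)
    exact (hI' _).1 (hxP i I hI bot_le ((hI' _).2 (InId.refl _)))
  obtain ⟨J, -, hJ, hFJ, hmax⟩ := exists_max_chain (Q := fun P => ¬ Fam (numS n) P)
    (isClosedIdeal_bot (A := A)) h0 (by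
    rintro N hNid hN ⟨x, hx, ho, hxP⟩
    -- each `x i` is full modulo finitely many elements of `N`
    have h1 : ∀ i, ∃ k ∈ N, ∀ P : Submodule ℂ A, IsClosedIdeal P → k ∈ P → x i ∈ P →
        (1 : A) ∈ P := by
      intro i
      obtain ⟨I, hI, hI'⟩ := isClosedIdeal_inId (x i)
      have hsup : ∀ a y : A, y ∈ I ⊔ N → a * y ∈ I ⊔ N ∧ y * a ∈ I ⊔ N := by
        intro a y hy
        obtain ⟨p, hp, q, hq, rfl⟩ := Submodule.mem_sup.1 hy
        rw [mul_add, add_mul]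
        exact ⟨Submodule.add_mem_sup (hI.2 a p hp).1 (hNid a q hq).1,
          Submodule.add_mem_sup (hI.2 a p hp).2 (hNid a q hq).2⟩
      have h2 := hxP i (I ⊔ N).topologicalClosure (isClosedIdeal_closure hsup)
        (Submodule.topologicalClosure_mono le_sup_right)
        ((Submodule.le_topologicalClosure _) (Submodule.mem_sup_left
          ((hI' _).2 (InId.refl _))))
      obtain ⟨y, hy, hy1⟩ := Metric.mem_closure_iff.1
        (show (1 : A) ∈ closure ((I ⊔ N : Submodule ℂ A) : Set A) from h2) 1 one_pos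
      obtain ⟨p, hp, q, hq, rfl⟩ := Submodule.mem_sup.1 hy
      rw [dist_eq_norm] at hy1
      refine ⟨q, hq, fun P hP hqP hxiP => one_mem_of_near hP (P.add_mem ?_ hqP) hy1⟩
      exact hP.inId hxiP ((hI' _).1 hp)
    choose k hkN hk using h1
    have h3 : ∑ i, star (k i) * k i ∈ N := N.sum_mem fun i _ => (hNid _ _ (hkN i)).1
    obtain ⟨P, hP, hFP, -, hkP⟩ := hN _ h3
    refine hFP ⟨x, hx, ho, fun i P' hP' hPP' hxi => hk i P' hP' ?_ hxi⟩
    refine hP'.of_star_mul_self (hPP' ?_)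
    refine hP.of_le (star_mul_self_nonneg _) ?_ hkP
    exact Finset.single_le_sum (f := fun i => star (k i) * k i)
      (fun j _ => star_mul_self_nonneg (k j)) (Finset.mem_univ i))
  exact ⟨J, hJ, fun hP => hFJ (fam_of_piMod hP _), fun J' hJ' hJJ' hne => by
    by_contra hcon
    exact hne (hmax J' hJJ' hJ' fun hF => hcon (piMod_of_fam hA hJ' hF))⟩

end

end Vale.Agent.P133.H216
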