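import Vale.Agent.P133.H216.Crit
import Vale.Agent.P133.H185.Key
import Vale.Agent.P133.R2.H695.Roerdam

/-!
P133 (helper216): a critical algebra contains two orthogonal full elements.
-/

open scoped ComplexOrder

namespace Vale.Agent.P133.H216

open Vale.Agent.P133 Vale.Agent.P133.Statement Vale.Agent.P133.H832 Vale.Agent.P133F
  Vale.Agent.P133.H681 Vale.Agent.P133.R2.H28 Vale.Agent.P133.R2.H28.H645

universe u

/-- If the unit is properly infinite modulo every nonzero closed ideal, then there are two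
orthogonal full positive elements. -/
theorem two_orth {B : Type u} [CStarAlgebra B] [PartialOrder B] [StarOrderedRing B] [Nontrivial B]
    (hW : WeaklyPurelyInfinite B)
    (hc : ∀ J : Submodule ℂ B, IsClosedIdeal J → J ≠ ⊥ → PIMod J (1 : B)) :
    ∃ x y : B, 0 ≤ x ∧ 0 ≤ y ∧ x * y = 0 ∧ InId x 1 ∧ InId y 1 := by
  obtain ⟨n, hn⟩ := wpi_elementwise hW
  obtain ⟨E, hE, hess, hE1⟩ := exists_essential hW (one_nonneg' (A := B))
  have hEne : E ≠ ⊥ := by
    rintro rfl
    have h1 := hess.2 ⊤ ⟨isClosed_univ, fun a x _ => ⟨trivial, trivial⟩⟩ (fun x _ => by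
        have := (InId.refl (1 : B)).mulL x
        rwa [mul_one] at this)
      (fun x _ hx => (Submodule.mem_bot ℂ).1 hx) 1 trivial
    exact one_ne_zero h1
  have hn0 : (0 : ℝ) ≤ n := Nat.cast_nonneg _
  set ε : ℝ := 1 / (16 * ((n : ℝ) ^ 2 + 1)) with hε
  have hε0 : 0 < ε := by positivity
  obtain ⟨r, hr⟩ := hc E hE hEne n ε hε0
  choose k hkE hk using hr
  obtain ⟨e, he, hke⟩ := exists_approx_unit (toCI hE)
    (c := fun p : Fin n × Fin n => k p.1 p.2) (fun p => hkE p.1 p.2) hε0
  have he1 : ‖(1 : B) - e‖ ≤ 1 := norm_one_sub_le he.nonneg he.le_one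
  have hes : star e = e := he.star_eq
  have hes1 : star (1 - e) = 1 - e := by rw [star_sub, star_one, hes]
  set b : B := (1 - e) * (1 - e) with hb
  have hb0 : 0 ≤ b := by
    have := star_mul_self_nonneg (1 - e)
    rwa [hes1] at this
  have h14 : (0 : ℝ) < 1 / 4 := by norm_num
  have hrow : ∀ i j : Fin n, ‖star (r i * (1 - e)) * 1 * (r j * (1 - e)) -
      (if i = j then b else 0)‖ ≤ 2 * ε := by
    intro i j
    have h1 : star (r i * (1 - e)) * 1 * (r j * (1 - e)) - (if i = j then b else 0) =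
        (1 - e) * (star (r i) * 1 * r j - (if i = j then 1 else 0) - k i j) * (1 - e) +
          (1 - e) * k i j * (1 - e) := by
      rw [star_mul, hes1, hb]
      split_ifs <;> noncomm_ring
    rw [h1]
    have h2 : ‖(1 - e) * (star (r i) * 1 * r j - (if i = j then 1 else 0) - k i j) * (1 - e)‖ ≤
        ε := by
      refine le_trans ?_ (hk i j).le
      calc _ ≤ 1 * ‖star (r i) * 1 * r j - (if i = j then 1 else 0) - k i j‖ * 1 := by
            refine (norm_mul_le _ _).trans ?_
            gcongr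
            refine (norm_mul_le _ _).trans ?_
            gcongr
        _ = _ := by rw [one_mul, mul_one]
    have h3 : ‖(1 - e) * k i j * (1 - e)‖ ≤ ε := by
      refine le_trans ?_ (hke (i, j)).2.le
      calc _ ≤ ‖(1 - e) * k i j‖ * 1 := by
            refine (norm_mul_le _ _).trans ?_
            gcongr
        _ = _ := mul_one _
    exact (norm_add_le _ _).trans (by linarith)
  have hnum : (n : ℝ) * (n * (2 * ε)) < 1 / 4 := by
    have h1 : ε * (16 * ((n : ℝ) ^ 2 + 1)) = 1 := by rw [hε]; field_simp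
    nlinarith [sq_nonneg (n : ℝ)]
  have hinf := Vale.Agent.P133.H695.infB_cut hn (a := (1 : B)) (b := b) (star_one B) hb0 h14
    (fun i => r i * (1 - e)) hrow hnum
  have hc2 : 0 ≤ Vale.Agent.P133.H695.cut (1 / 4) b := hinf.1
  have heE : InfB (1 : B) e := infB_of_allBelow he.nonneg (hE1 e he.mem he.nonneg)
  have hclose : ‖Vale.Agent.P133.H695.cut (1 / 4) b - b‖ ≤ 1 / 4 :=
    Vale.Agent.P133.R2.H28.norm_cut_sub_le hb0 h14
  have hfull : InId (e + Vale.Agent.P133.H695.cut (1 / 4) b) 1 := by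
    obtain ⟨I, hI, hI'⟩ := isClosedIdeal_inId (e + Vale.Agent.P133.H695.cut (1 / 4) b)
    refine (hI' 1).1 ?_
    have h1 := (hI' _).2 (InId.refl (e + Vale.Agent.P133.H695.cut (1 / 4) b))
    have h2 : e ∈ I := hI.of_le he.nonneg (le_add_of_nonneg_right hc2) h1
    have h3 : Vale.Agent.P133.H695.cut (1 / 4) b ∈ I :=
      hI.of_le hc2 (le_add_of_nonneg_left he.nonneg) h1
    have h4 : 1 - b ∈ I := by
      have h5 : 1 - b = e + (1 - e) * e := by rw [hb]; noncomm_ring
      rw [h5]
      exact I.add_mem h2 (hI.2 _ _ h2).1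
    refine one_mem_of_near hI (I.add_mem h3 h4) ?_
    have h5 : 1 - (Vale.Agent.P133.H695.cut (1 / 4) b + (1 - b)) =
        -(Vale.Agent.P133.H695.cut (1 / 4) b - b) := by abel
    rw [h5, norm_neg]
    linarith
  obtain ⟨b₁, b₂, h1, h2, h3, -, -, h6, h7⟩ := Vale.Agent.P133.H185.key_lemma
    (A := B) (e := 1) (one_mul 1) (IsSelfAdjoint.one B) he.nonneg hc2 heE hinf hfull
  exact ⟨b₁, b₂, h1, h2, h3, h6, h7⟩

/-- a critical algebra contains two orthogonal full positive elements -/
theorem Crit.two {B : Type u} [CStarAlgebra B] [PartialOrder B] [StarOrderedRing B]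
    (h : Crit B) : ∃ x y : B, 0 ≤ x ∧ 0 ≤ y ∧ x * y = 0 ∧ InId x 1 ∧ InId y 1 :=
  have := nontrivial_of_not h.ne
  two_orth h.wpi h.min

end Vale.Agent.P133.H216
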